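import Vale.Agent.N328.Retry
import Vale.Agent.P328.GPoly

/-!
The exact law of a Markov chain driven by coins, computed by dynamic programming over a list of
states.
-/

namespace Vale.Agent.N328

open Finset hiding val
open Vale.Agent.Lib.PTM Vale.Agent.Lib.PolyTime Vale.Agent.P328

/-- The word of length `n` with the binary digits of `a`. -/
def wordOf (n a : ℕ) : List Bool := (List.range n).map a.testBit

theorem wordOf_val (ρ : List Bool) : wordOf ρ.length (val ρ) = ρ := by
  induction ρ with
  | nil => rfl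
  | cons b ρ ih =>
    have h : val (b :: ρ) = Nat.bit b (val ρ) := by
      rw [val_cons, Nat.bit_val]
      ring
    rw [wordOf, h, List.length_cons, List.range_succ_eq_map, List.map_cons, List.map_map,
      Nat.testBit_bit_zero]
    congr 1
    exact (List.map_congr_left fun i _ => Nat.testBit_bit_succ i b _).trans ih

theorem ex_wordOf (n : ℕ) (G : List Bool → ℝ) :
    ex n G = (∑ a ∈ range (2 ^ n), G (wordOf n a)) / 2 ^ n := by
  rw [← ex_val n fun a => G (wordOf n a)]
  exact ex_congr fun ρ h => by rw [← h, wordOf_val]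

theorem sumR_range (k : ℕ) (F : ℕ → ℕ) : sumR k F = ∑ i ∈ range k, F i := rfl

theorem getD_map_idxOf {σ : Type} [DecidableEq σ] {G : List σ} {x : σ} (hx : x ∈ G) (F : σ → ℕ) :
    (G.map F).getD (G.idxOf x) 0 = F x := by
  have h := List.idxOf_lt_length_of_mem hx
  rw [List.getD_eq_getElem _ _ (by simpa using h), List.getElem_map, List.getElem_idxOf]

section DP

variable {σ : Type} [DecidableEq σ] (f : σ → List Bool → σ) (B : ℕ) (y : σ)

/-- The number of coin words which lead from `x` to `y` in `j` steps. -/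
def cnt : ℕ → σ → ℕ
  | 0, x => if x = y then 1 else 0
  | j + 1, x => sumR (2 ^ B) fun a => cnt j (f x (wordOf B a))

theorem cnt_eq (j : ℕ) (x : σ) :
    (cnt f B y j x : ℝ) = 2 ^ (j * B) * ex (j * B) fun ρ => ind (walk f B j x ρ = y) := by
  induction j generalizing x with
  | zero =>
    rw [zero_mul, ex_zero, pow_zero, one_mul, cnt, walk, ind]
    split_ifs <;> simp
  | succ j ih =>
    rw [cnt, sumR_range, Nat.cast_sum, Nat.succ_mul, add_comm (j * B)]
    simp only [ih, walk]
    rw [ex_split B (j * B) fun u v => ind (walk f B j (f x u) v = y), ex_wordOf B,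
      ← Finset.mul_sum, pow_add]
    field_simp

theorem cnt_le (j : ℕ) (x : σ) : cnt f B y j x ≤ 2 ^ (j * B) := by
  have h : ex (j * B) (fun ρ => ind (walk f B j x ρ = y)) ≤ 1 :=
    (ex_mono fun _ _ => ind_le _).trans (ex_const _ 1).le
  have h1 : (cnt f B y j x : ℝ) ≤ 2 ^ (j * B) := by
    rw [cnt_eq]
    exact mul_le_of_le_one_right (by positivity) h
  exact_mod_cast h1

/-- One round of the dynamic programme. -/
def dstep (G : List σ) (k cap : ℕ) (tb : List ℕ) : List ℕ :=
  G.map fun x => min (sumR k fun a => tb.getD (G.idxOf (f x (wordOf B a))) 0) cap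

/-- The dynamic programme over the list `G` of states, with the first `k` blocks of coins. -/
def dp (G : List σ) (k t : ℕ) (x : σ) : ℕ :=
  ((dstep f B G k (2 ^ (t * B)))^[t] (G.map fun x => if x = y then 1 else 0)).getD (G.idxOf x) 0

theorem dp_eq {G : List σ} (hG : ∀ x ∈ G, ∀ u, f x u ∈ G) (t : ℕ) {x : σ} (hx : x ∈ G) :
    dp f B y G (2 ^ B) t x = cnt f B y t x := by
  have key : ∀ j ≤ t, (dstep f B G (2 ^ B) (2 ^ (t * B)))^[j]
      (G.map fun x => if x = y then 1 else 0) = G.map (cnt f B y j) := by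
    intro j
    induction j with
    | zero => exact fun _ => rfl
    | succ j ih =>
      intro hj
      rw [Function.iterate_succ_apply', ih (by omega), dstep]
      refine List.map_congr_left fun z hz => ?_
      simp only [getD_map_idxOf (hG z hz _)]
      exact min_eq_left ((cnt_le f B y (j + 1) z).trans
        (Nat.pow_le_pow_right two_pos (Nat.mul_le_mul_right B hj)))
  rw [dp, key t le_rfl, getD_map_idxOf hx]

end DP

variable {α : Type} [Enc α]

theorem pt_wordOf {n a : α → ℕ} (hn : PT ∅ n) (hn' : PBd n) (ha : PT ∅ a) :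
    PT ∅ fun s => wordOf (n s) (a s) :=
  PT.map (f := fun s i => (a s).testBit i) (PT.range hn hn') (PT.testBit (ha.comp PT.fst') PT.snd')

theorem pt_dp {σ : Type} [DecidableEq σ] [Enc σ] [EncInj σ] {f : α → σ → List Bool → σ}
    {B k t : α → ℕ} {x y : α → σ} {G : α → List σ}
    (hf : PT ∅ fun s : α × σ × List Bool => f s.1 s.2.1 s.2.2) (hB : PT ∅ B) (hB' : PBd B)
    (hk : PT ∅ k) (hk' : PBd k) (ht : PT ∅ t) (ht' : PBd t) (hx : PT ∅ x) (hy : PT ∅ y)
    (hG : PT ∅ G) : PT ∅ fun a => dp (f a) (B a) (y a) (G a) (k a) (t a) (x a) := by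
  have hc : PT ∅ fun a => 2 ^ (t a * B a) := PT.pow (PT.const 2) (ht.mul hB) (ht'.mul hB')
  have k1 : PT ∅ fun s : (α × List ℕ) × σ => s.1.1 := PT.fst'.fst
  have k2 : PT ∅ fun s : ((α × List ℕ) × σ) × ℕ => s.1.1.1 := PT.fst'.fst.fst
  refine PT.getD (PT.iterate' (step := fun a => dstep (f a) (B a) (G a) (k a) (2 ^ (t a * B a)))
    ht ht' (PT.map (f := fun a x => if x = y a then 1 else 0) hG
      (PT.ite (PT.eq PT.snd' (hy.comp PT.fst')) (PT.const 1) (PT.const 0)))
    (PT.map (f := fun (s : α × List ℕ) x => min (sumR (k s.1) fun a => s.2.getD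
      ((G s.1).idxOf (f s.1 x (wordOf (B s.1) a))) 0) (2 ^ (t s.1 * B s.1))) (hG.comp PT.fst')
      (PT.min (pt_sumR (hk.comp k1) (hk'.comp k1) (PT.getD PT.fst'.fst.snd (PT.idxOf (hG.comp k2)
        (hf.comp (k2.pair (PT.fst'.snd.pair (pt_wordOf (hB.comp k2) (hB'.comp k2) PT.snd')))))
          (PT.const 0))) (hc.comp k1)))
    (b := fun a => (G a).length * (2 * esize (2 ^ (t a * B a)) + 1)) ?_ fun a j _ => ?_)
    (PT.idxOf hG hx) (PT.const 0)
  · have h1 := PBd.length hG
    have h2 := hc.pbd
    fun_prop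
  · have h1 : ∀ F : σ → ℕ, (∀ z, F z ≤ 2 ^ (t a * B a)) →
        esize ((G a).map F) ≤ (G a).length * (2 * esize (2 ^ (t a * B a)) + 1) := by
      intro F hF
      have h2 := esize_list_le (l := (G a).map F) (B := esize (2 ^ (t a * B a))) fun v hv => by
        obtain ⟨z, -, rfl⟩ := List.mem_map.1 hv
        exact esize_nat_mono (hF z)
      rwa [List.length_map] at h2
    rcases j with _ | j
    · refine h1 _ fun z => le_trans ?_ Nat.one_le_two_pow
      split_ifs <;> omega
    · rw [Function.iterate_succ_apply']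
      exact h1 _ fun z => min_le_right _ _

end Vale.Agent.N328
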