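import Vale.Agent.N328.Trial

/-!
One trial of the exact sampler on lists and numbers. The number `N` is the length of the padding; it
bounds the lists used in the slow branch, so that the trial is polynomial in the padded input.
-/

namespace Vale.Agent.N328

open Finset hiding val
open Vale.Agent.Lib.PTM Vale.Agent.Lib.PolyTime Vale.Agent.P328

section Defs

variable (D : Dat) (K N : ℕ)

/-- The number of bits of a coordinate of the grid. -/
def kbL (i j : ℕ) : ℕ := if ¬ i = D.i0 ∧ ¬ j = D.j0 then 13 * tau D.m D.n else 0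

/-- The point of the grid read from the coins. -/
def decL (u : List Bool) : List (List ℕ) :=
  build D.m D.n (MM D.m D.n ^ 13) fun i j =>
    val ((blk (13 * tau D.m D.n) j (blk (D.n * (13 * tau D.m D.n)) i u)).take (kbL D i j))

/-- The starting point. -/
def zeroL : List (List ℕ) := build D.m D.n (MM D.m D.n ^ 13) fun _ _ => 0

/-- The list of the points of the grid. -/
def gridL : List (List (List ℕ)) :=
  (List.range (min (2 ^ nE D.m D.n) N)).map fun a => decL D (wordOf (nE D.m D.n) a)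

/-- The number of coin words which lead to a point. -/
def cnL (L : List (List ℕ)) : ℕ :=
  dp D.gstep (gcoins D.m D.n) L (gridL D N) (min (2 ^ gcoins D.m D.n) N) (nS D.m D.n K) (zeroL D)

/-- The threshold. -/
def thrL (L : List (List ℕ)) : ℕ :=
  2 ^ (sumR D.m fun i => sumR D.n fun j => kbL D i j) * ((2 ^ K - 1) *
    (cnL D K N (zeroL D) * 2 ^ min (D.hgt (ent (zeroL D))) (MM D.m D.n ^ 20) +
      2 ^ (nJ D.m D.n K - (K + MM D.m D.n ^ 5 + 1)) - cnL D K N L))

/-- The point of the grid of a trial. -/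
def gkL (ρ : List Bool) : List (List ℕ) :=
  if val (ρ.take K) = 0 then decL D ((ρ.drop K).drop (nJ D.m D.n K))
  else walk D.gstep (gcoins D.m D.n) (nS D.m D.n K) (zeroL D) ((ρ.drop K).take (nJ D.m D.n K))

/-- The point of the fine box of a trial. -/
def pxL (ρ : List Bool) (i j : ℕ) : ℕ :=
  2 ^ D.dbits i j * ent (gkL D K (ρ.take (nA D.m D.n K))) i j +
    val ((blk D.N.size j (blk (D.n * D.N.size) i (ρ.drop (nA D.m D.n K)))).take (D.dbits i j))

/-- One trial. -/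
def trialL (ρ : List Bool) : Option (List (List ℕ)) :=
  if (¬ val ((ρ.take (nA D.m D.n K)).take K) = 0 ∨
      val (((ρ.take (nA D.m D.n K)).drop K).take (nJ D.m D.n K)) <
        thrL D K N (gkL D K (ρ.take (nA D.m D.n K)))) ∧ D.pen (pxL D K ρ) = 0
  then some (build D.m D.n D.N (D.tab (pxL D K ρ))) else none

end Defs

theorem build_congr {m n M : ℕ} {F G : ℕ → ℕ → ℕ}
    (h : ∀ i < m, ∀ j < n, min (F i j) M = min (G i j) M) : build m n M F = build m n M G :=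
  List.map_congr_left fun i hi => List.map_congr_left fun j hj =>
    h i (List.mem_range.1 hi) j (List.mem_range.1 hj)

theorem build_ent (m n M : ℕ) (F : ℕ → ℕ → ℕ) :
    build m n M F = build m n M (ent (build m n M F)) :=
  build_congr fun i hi j hj => by rw [ent_build F hi hj, min_assoc, min_self]

/-- The list is the canonical representation of the point of the grid. -/
def Rp {m n : ℕ} (P : Par m n) (L : List (List ℕ)) (k : Pt m n) : Prop :=
  (k ∈ P.grid ∧ ∀ a : Fin m × Fin n, ent L a.1 a.2 = k a) ∧ L = build m n (MM m n ^ 13) (ent L)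

theorem Rp.eq_iff {m n : ℕ} {P : Par m n} {L L' : List (List ℕ)} {k k' : Pt m n} (h : Rp P L k)
    (h' : Rp P L' k') : L = L' ↔ k = k' := by
  refine ⟨fun e => funext fun a => by rw [← h.1.2, ← h'.1.2, e], fun e => ?_⟩
  rw [h.2, h'.2]
  refine build_congr fun i hi j hj => ?_
  rw [h.1.2 (⟨i, hi⟩, ⟨j, hj⟩), h'.1.2 (⟨i, hi⟩, ⟨j, hj⟩), e]

section Rel

variable {D : Dat} {m n : ℕ} {P : Par m n} (h : D.Rel P) {K N : ℕ}
include h

theorem kbL_eq (a : Fin m × Fin n) : kbL D a.1 a.2 = kb P a := by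
  unfold kbL kb
  simp only [h.m, h.n, h.i0, h.j0, Fin.val_inj]

theorem rp_dec (u : List Bool) : Rp P (decL D u) (gdec P u) := by
  unfold decL
  rw [h.m, h.n]
  refine ⟨⟨gdec_mem P u, fun a => ?_⟩, build_ent _ _ _ _⟩
  have h2 := P.mem_grid_iff.1 (gdec_mem P u) a
  have h3 : 0 < MM m n ^ 13 := pow_pos (MM_pos _ _) _
  rw [ent_build _ a.1.2 a.2.2, kbL_eq h]
  refine min_eq_left (show gdec P u a ≤ _ from ?_)
  unfold Par.Kc at h2
  split_ifs at h2 <;> omega

theorem rp_zero : Rp P (zeroL D) 0 := by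
  unfold zeroL
  rw [h.m, h.n]
  exact ⟨⟨P.zero_mem_grid, fun a => by rw [ent_build _ a.1.2 a.2.2]; simp⟩, build_ent _ _ _ _⟩

theorem rp_step {L : List (List ℕ)} {k : Pt m n} (ρ : List Bool) (hL : Rp P L k) :
    Rp P (D.gstep L ρ) (P.gstep k ρ) := by
  refine ⟨h.gstep ρ hL.1, ?_⟩
  rw [← h.m, ← h.n]
  exact build_ent _ _ _ _

theorem mem_gridL (hN : 2 ^ nE m n ≤ N) {L : List (List ℕ)} : L ∈ gridL D N ↔ ∃ k, Rp P L k := by
  unfold gridL
  rw [h.m, h.n, min_eq_left hN, List.mem_map]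
  constructor
  · rintro ⟨a, -, rfl⟩
    exact ⟨_, rp_dec h _⟩
  · rintro ⟨k, hk⟩
    obtain ⟨a, ha, e⟩ := gdec_surj P hk.1.1
    exact ⟨a, List.mem_range.2 ha, ((rp_dec h _).eq_iff hk).2 e⟩

theorem cnt_rel {L' : List (List ℕ)} {k' : Pt m n} (h' : Rp P L' k') (B j : ℕ)
    {L : List (List ℕ)} {k : Pt m n} (hL : Rp P L k) :
    cnt D.gstep B L' j L = cnt P.gstep B k' j k := by
  induction j generalizing L k with
  | zero => exact if_congr (hL.eq_iff h') rfl rfl
  | succ j ih => exact congrArg (sumR _) (funext fun a => ih (rp_step h _ hL))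

theorem cnL_eq (hN : 2 ^ nE m n ≤ N) (hN' : 2 ^ gcoins m n ≤ N) {L : List (List ℕ)} {k : Pt m n}
    (hL : Rp P L k) : cnL D K N L = cn P K k := by
  unfold cnL
  rw [h.m, h.n, min_eq_left hN', dp_eq _ _ _ (fun x hx u => by
    obtain ⟨k, hk⟩ := (mem_gridL h hN).1 hx
    exact (mem_gridL h hN).2 ⟨_, rp_step h u hk⟩) _ ((mem_gridL h hN).2 ⟨_, rp_zero h⟩)]
  exact cnt_rel h hL _ _ (rp_zero h)

theorem thrL_eq (hF : P.Facts) (hN : 2 ^ nE m n ≤ N) (hN' : 2 ^ gcoins m n ≤ N)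
    {L : List (List ℕ)} {k : Pt m n} (hL : Rp P L k) : thrL D K N L = thr P K k := by
  unfold thrL thr top
  rw [cnL_eq h hN hN' hL, cnL_eq h hN hN' (rp_zero h), h.hgt (rp_zero h).1.2, h.m, h.n,
    min_eq_left (hF.hgt_le P.zero_mem_grid), card_grid, Fintype.sum_prod_type,
    sumR_eq fun i => sumR_eq fun j => kbL_eq h (i, j)]

theorem rp_gk (ρ : List Bool) : Rp P (gkL D K ρ) (gk P K ρ) := by
  unfold gkL gk
  rw [h.m, h.n]
  split_ifs
  · exact rp_dec h _
  · exact walk_rel (Rp P) (fun _ _ ρ hL => rp_step h ρ hL) _ _ (rp_zero h) _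

theorem pxL_eq (ρ : List Bool) (a : Fin m × Fin n) : pxL D K ρ a.1 a.2 = px P K ρ a := by
  unfold pxL px Par.pt Par.fill
  rw [h.m, h.n, h.N, h.dbits, (rp_gk h _).1.2, P.del_eq]

theorem trialL_eq (hF : P.Facts) (ρ : List Bool)
    (hN : val (ρ.take K) = 0 → 2 ^ nE m n ≤ N ∧ 2 ^ gcoins m n ≤ N) :
    (trialL D K N ρ).map enc = (trial P K ρ).map mat := by
  have h1 : (¬ val ((ρ.take (nA m n K)).take K) = 0 ∨
      val (((ρ.take (nA m n K)).drop K).take (nJ m n K)) <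
        thrL D K N (gkL D K (ρ.take (nA m n K)))) ↔ ok P K (ρ.take (nA m n K)) := by
    unfold ok
    by_cases h2 : val ((ρ.take (nA m n K)).take K) = 0
    · have h3 := hN (by rwa [List.take_take, min_eq_left (by unfold nA; omega)] at h2)
      rw [thrL_eq h hF h3.1 h3.2 (rp_gk h _)]
    · exact iff_of_true (Or.inl h2) (Or.inl h2)
  unfold trialL trial
  rw [h.pen (pxL_eq h ρ), h.m, h.n, h.N]
  simp only [h1]
  split_ifs with h2
  · refine congrArg some (enc_build fun i j => ?_)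
    rw [h.tab (pxL_eq h ρ)]
    exact min_eq_left (le_total_sum (tabM P.r P.c) ⟨_, hF.tab_mem (px_mem P K ρ) h2.2⟩ i j)
  · rfl

end Rel

section PT

variable {α : Type} [Enc α] {D : α → Dat} (hD : PT ∅ D)
include hD

theorem pt_kbL {i j : α → ℕ} (hi : PT ∅ i) (hj : PT ∅ j) : PT ∅ fun a => kbL (D a) (i a) (j a) :=
  PT.ite (Dat.pt_free hD hi hj) (PT.mul (PT.const 13) (Dat.pt_tau hD)) (PT.const 0)

theorem pt_decL {u : α → List Bool} (hu : PT ∅ u) : PT ∅ fun a => decL (D a) (u a) := by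
  have k : PT ∅ fun s : (α × ℕ) × ℕ => s.1.1 := PT.fst'.fst
  have h1 := PT.mul (PT.const 13) (Dat.pt_tau (hD.comp k))
  exact pt_build (Dat.pt_m hD) (Dat.pb_m hD) (Dat.pt_n hD) (Dat.pb_n hD)
    (PT.powConst (Dat.pt_MM hD) 13) (PT.valList (PT.take (pt_blk h1 PT.snd'
      (pt_blk (PT.mul (Dat.pt_n (hD.comp k)) h1) PT.fst'.snd (hu.comp k)))
        (pt_kbL (hD.comp k) PT.fst'.snd PT.snd')))

theorem pt_zeroL : PT ∅ fun a => zeroL (D a) :=
  pt_build (Dat.pt_m hD) (Dat.pb_m hD) (Dat.pt_n hD) (Dat.pb_n hD)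
    (PT.powConst (Dat.pt_MM hD) 13) (PT.const 0)

theorem pt_nE : PT ∅ fun a => nE (D a).m (D a).n :=
  PT.mul (Dat.pt_m hD) (PT.mul (Dat.pt_n hD) (PT.mul (PT.const 13) (Dat.pt_tau hD)))

theorem pb_nE : PBd fun a => nE (D a).m (D a).n :=
  (Dat.pb_m hD).mul ((Dat.pb_n hD).mul ((PBd.const 13).mul (Dat.pb_tau hD)))

theorem pb_gcoins : PBd fun a => gcoins (D a).m (D a).n := by
  have h1 := Dat.pb_MM hD
  have h2 := Dat.pb_tau hD
  unfold gcoins
  fun_prop

variable {K : α → ℕ} (hK : PT ∅ K) (hK' : PBd K)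
include hK

theorem pt_nS : PT ∅ fun a => nS (D a).m (D a).n (K a) :=
  Dat.pt_gsteps hD (PT.add (PT.add hK (PT.powConst (Dat.pt_MM hD) 5))
    (PT.powConst (Dat.pt_MM hD) 20))

theorem pt_nJ : PT ∅ fun a => nJ (D a).m (D a).n (K a) :=
  PT.mul (pt_nS hD hK) (Dat.pt_gcoins hD)

theorem pt_nA : PT ∅ fun a => nA (D a).m (D a).n (K a) :=
  PT.add hK (PT.add (pt_nJ hD hK) (pt_nE hD))

omit hK
include hK'

theorem pb_nS : PBd fun a => nS (D a).m (D a).n (K a) :=
  Dat.pb_gsteps hD ((hK'.add ((Dat.pb_MM hD).pow 5)).add ((Dat.pb_MM hD).pow 20))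

theorem pb_nJ : PBd fun a => nJ (D a).m (D a).n (K a) := (pb_nS hD hK').mul (pb_gcoins hD)

theorem pb_nA : PBd fun a => nA (D a).m (D a).n (K a) :=
  hK'.add ((pb_nJ hD hK').add (pb_nE hD))

include hK

theorem pt_gkL {ρ : α → List Bool} (hρ : PT ∅ ρ) : PT ∅ fun a => gkL (D a) (K a) (ρ a) :=
  PT.ite (PT.eqNat (PT.valList (PT.take hρ hK)) (PT.const 0))
    (pt_decL hD (PT.drop (PT.drop hρ hK) (pt_nJ hD hK)))
    (pt_walk (f := fun a => (D a).gstep)
      (Dat.pt_gstep (hD.comp PT.fst') PT.snd'.fst PT.snd'.snd) (Dat.pt_gcoins hD) (pt_nS hD hK)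
      (pb_nS hD hK') (pt_zeroL hD) (PT.take (PT.drop hρ hK) (pt_nJ hD hK))
      (b := fun a => (D a).m * (2 * ((D a).n * (2 * esize (MM (D a).m (D a).n ^ 13) + 1)) + 1)) (by
        have h4 := Dat.pb_m hD
        have h5 := Dat.pb_n hD
        have h6 := (PT.powConst (Dat.pt_MM hD) 13).pbd
        fun_prop) (fun _ => esize_build _ _ _ _) fun _ _ _ => esize_build _ _ _ _)

theorem pt_pxL {ρ : α → List Bool} {i j : α → ℕ} (hρ : PT ∅ ρ) (hi : PT ∅ i) (hj : PT ∅ j) :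
    PT ∅ fun a => pxL (D a) (K a) (ρ a) (i a) (j a) := by
  have h2 := (Dat.pt_N hD).natSize
  exact PT.add (PT.mul (Dat.pt_del hD hi hj)
    (pt_ent (pt_gkL hD hK hK' (PT.take hρ (pt_nA hD hK))) hi hj)) (PT.valList (PT.take
      (pt_blk h2 hj (pt_blk (PT.mul (Dat.pt_n hD) h2) hi (PT.drop hρ (pt_nA hD hK))))
        (Dat.pt_dbits hD hi hj)))

variable {N : α → ℕ} (hN : PT ∅ N) (hN' : PBd N)
include hN hN'

theorem pt_cnL {L : α → List (List ℕ)} (hL : PT ∅ L) :
    PT ∅ fun a => cnL (D a) (K a) (N a) (L a) :=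
  pt_dp (f := fun a => (D a).gstep) (Dat.pt_gstep (hD.comp PT.fst') PT.snd'.fst PT.snd'.snd)
    (Dat.pt_gcoins hD) (pb_gcoins hD)
    (PT.min (PT.pow (PT.const 2) (Dat.pt_gcoins hD) (pb_gcoins hD)) hN)
    (hN'.mono fun _ => min_le_right _ _) (pt_nS hD hK) (pb_nS hD hK') (pt_zeroL hD) hL
    (PT.map (f := fun a i => decL (D a) (wordOf (nE (D a).m (D a).n) i))
      (PT.range (PT.min (PT.pow (PT.const 2) (pt_nE hD) (pb_nE hD)) hN)
        (hN'.mono fun _ => min_le_right _ _))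
      (pt_decL (hD.comp PT.fst') (pt_wordOf (pt_nE (hD.comp PT.fst')) (pb_nE (hD.comp PT.fst'))
        PT.snd')))

theorem pt_thrL {L : α → List (List ℕ)} (hL : PT ∅ L) :
    PT ∅ fun a => thrL (D a) (K a) (N a) (L a) := by
  have k : PT ∅ fun s : (α × ℕ) × ℕ => s.1.1 := PT.fst'.fst
  have h1 := Dat.pt_tot hD (F := fun a => kbL (D a)) (pt_kbL (hD.comp k) PT.fst'.snd PT.snd')
  have h2 : PBd fun a => sumR (D a).m fun i => sumR (D a).n fun j => kbL (D a) i j := by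
    refine (pb_nE hD).mono fun a => ?_
    rw [sumR_range, nE]
    refine (Finset.sum_le_card_nsmul _ _ ((D a).n * (13 * tau (D a).m (D a).n))
      fun i _ => ?_).trans (by simp)
    rw [sumR_range]
    refine (Finset.sum_le_card_nsmul _ _ (13 * tau (D a).m (D a).n) fun j _ => ?_).trans (by simp)
    unfold kbL
    split_ifs <;> omega
  have h3 := Dat.pt_hgt hD (F := fun a => ent (zeroL (D a)))
    (pt_ent (pt_zeroL (hD.comp k)) PT.fst'.snd PT.snd')
  exact PT.mul (PT.pow (PT.const 2) h1 h2) (PT.mul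
    (PT.sub (PT.pow (PT.const 2) hK hK') (PT.const 1)) (PT.sub (PT.add
      (PT.mul (pt_cnL hD hK hK' hN hN' (pt_zeroL hD)) (PT.pow (PT.const 2)
        (PT.min h3 (PT.powConst (Dat.pt_MM hD) 20))
        (((Dat.pb_MM hD).pow 20).mono fun _ => min_le_right _ _)))
      (PT.pow (PT.const 2) (PT.sub (pt_nJ hD hK) (PT.add (PT.add hK
        (PT.powConst (Dat.pt_MM hD) 5)) (PT.const 1))) ((pb_nJ hD hK').mono fun _ => Nat.sub_le _ _)))
      (pt_cnL hD hK hK' hN hN' hL)))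

theorem pt_trialL {ρ : α → List Bool} (hρ : PT ∅ ρ) :
    PT ∅ fun a => trialL (D a) (K a) (N a) (ρ a) := by
  have k : PT ∅ fun s : (α × ℕ) × ℕ => s.1.1 := PT.fst'.fst
  have k2 : PT ∅ fun s : (((α × ℕ) × ℕ) × ℕ) × ℕ => s.1.1.1.1 := k.comp PT.fst'.fst
  have h1 := PT.take hρ (pt_nA hD hK)
  exact PT.ite (PT.decide_and (PT.decide_or
    (PT.decide_not (PT.eqNat (PT.valList (PT.take h1 hK)) (PT.const 0)))
    (PT.lt (PT.valList (PT.take (PT.drop h1 hK) (pt_nJ hD hK)))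
      (pt_thrL hD hK hK' hN hN' (pt_gkL hD hK hK' h1))))
    (PT.eqNat (Dat.pt_pen hD (F := fun a => pxL (D a) (K a) (ρ a))
      (pt_pxL (hD.comp k) (hK.comp k) (hK'.comp k) (hρ.comp k) PT.fst'.snd PT.snd')) (PT.const 0)))
    (PT.some (pt_build (Dat.pt_m hD) (Dat.pb_m hD) (Dat.pt_n hD) (Dat.pb_n hD) (Dat.pt_N hD)
      (Dat.pt_tab (hD.comp k) (F := fun s => pxL (D s.1.1) (K s.1.1) (ρ s.1.1))
        (pt_pxL (hD.comp k2) (hK.comp k2) (hK'.comp k2) (hρ.comp k2) PT.fst'.snd PT.snd')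
        PT.fst'.snd PT.snd'))) (PT.const none)

end PT

end Vale.Agent.N328
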