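import Vale.Agent.Lib.PTM.Sim

/-!
Probabilistic Turing machines without a bound on the number of rounds: potential functions give
bounds for the expected running time and for the law of the output.
-/

namespace Vale.Agent.N328

open Turing Function Vale.Agent.Lib.PTM Vale.Agent.Lib.PolyTime Vale.Agent.Lib.PolyTime.ToTM2

theorem ind_nn (p : Prop) : 0 ≤ ind p := by unfold ind; split_ifs <;> norm_num

theorem ind_le (p : Prop) : ind p ≤ 1 := by unfold ind; split_ifs <;> norm_num

theorem ind_pos {p : Prop} (h : p) : ind p = 1 := if_pos h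

theorem ind_neg {p : Prop} (h : ¬ p) : ind p = 0 := if_neg h

/-- `a` times the expected number of working steps among the next `T` steps, plus the probability
of `P` after `T` steps. -/
noncomputable def cost (M : Machine) (a : ℝ) (P : M.Cfg → Prop) : ℕ → M.Cfg → ℝ
  | 0, c => ind (P c)
  | T + 1, c => a * ind (c.l ≠ none) +
      (cost M a P T (M.step c false) + cost M a P T (M.step c true)) / 2

section Cost

variable {M : Machine} {a : ℝ} {P : M.Cfg → Prop}

theorem cost_eq (T : ℕ) (c : M.Cfg) : cost M a P T c =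
    a * ∑ t ∈ Finset.range T, frq t (fun ρ => (M.go c ρ).l ≠ none) +
      frq T fun ρ => P (M.go c ρ) := by
  induction T generalizing c with
  | zero =>
    rw [Finset.sum_range_zero, mul_zero, zero_add, frq_zero]
    rfl
  | succ T ih =>
    rw [cost, ih, ih, Finset.sum_range_succ', frq_succ, frq_zero]
    simp only [frq_succ, Machine.go_cons, ← Finset.sum_div, Finset.sum_add_distrib]
    change _ = a * (_ + ind (c.l ≠ none)) + _
    ring

theorem cost_halt {c : M.Cfg} (h : c.l = none) (T : ℕ) : cost M a P T c = ind (P c) := by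
  induction T with
  | zero => rfl
  | succ T ih =>
    rw [cost, Machine.step_none h, Machine.step_none h, ih, ind_neg (not_not.2 h)]
    ring

theorem cost_step (ha : 0 ≤ a) (T : ℕ) (c : M.Cfg) : cost M a P (T + 1) c ≤
    a + (cost M a P T (M.step c false) + cost M a P T (M.step c true)) / 2 := by
  have := mul_le_mul_of_nonneg_left (ind_le (c.l ≠ none)) ha
  rw [cost]
  linarith

theorem cost_mono (ha : 0 ≤ a) (hP : ∀ d, P d → d.l = none) (T : ℕ) (c : M.Cfg) :
    cost M a P T c ≤ cost M a P (T + 1) c := by
  induction T generalizing c with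
  | zero =>
    by_cases h : P c
    · rw [cost_halt (hP c h), cost_halt (hP c h)]
    · have h1 := mul_nonneg ha (ind_nn (c.l ≠ none))
      have h2 := ind_nn (P (M.step c false))
      have h3 := ind_nn (P (M.step c true))
      simp only [cost, ind_neg h]
      linarith
  | succ T ih =>
    have h1 := ih (M.step c false)
    have h2 := ih (M.step c true)
    rw [cost, cost]
    linarith

theorem cost_det (ha : 0 ≤ a) (hP : ∀ d, P d → d.l = none) {m : ℕ} {c d : M.Cfg}
    (h : M.Det m c d) (T : ℕ) : cost M a P T c ≤ a * m + cost M a P T d := by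
  induction m generalizing c with
  | zero => simp [show c = d from h]
  | succ m ih =>
    have h1 := cost_mono ha hP T c
    have h2 := cost_step (P := P) ha T c
    have h3 := ih (h false)
    have h4 := ih (h true)
    push_cast
    linarith

end Cost

theorem cost_run {N : ℕ} {R : Set (List Prog)} {h0 : [] ∈ R} {hfin : R.Finite} {st : List Prog}
    {p : Prog} {s s' : ℕ → Word} {t : ℕ} (h : Runs ∅ p s t s') (hn : NoQ p)
    (hb : bounded (N + 1) p) {ks : List Prog} (hR : reach p ks ⊆ R) (hks : ks ∈ R) {a : ℝ}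
    (ha : 0 ≤ a) {P : (mach N R h0 hfin st).Cfg → Prop} (hP : ∀ d, P d → d.l = none) {T : ℕ}
    {r : ℝ} (H : ∀ v, cost _ a P T (cfg N R h0 hfin st ks v s') ≤ r) (v : Option Bool) :
    cost _ a P T (cfg N R h0 hfin st (p :: ks) v s) ≤ a * (2 * t : ℕ) + r := by
  obtain ⟨t', ht, h⟩ := h
  obtain ⟨n, v', h1, h2⟩ := sim' (h0 := h0) (hfin := hfin) (st := st) h hn hb ks hR hks v
  have h3 : (n : ℝ) ≤ (2 * t : ℕ) := Nat.cast_le.2 (by omega)
  exact (cost_det ha hP h2 T).trans (add_le_add (mul_le_mul_of_nonneg_left h3 ha) (H v'))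

/-- The relation `R` between states and numbers is a potential for the rounds given by the test
`Q`, the update `U` (which gets one coin) and the output function `Out`. -/
def Pot (Q U Out : Word → Word) (c : ℕ) (a : ℝ) (p : Word → Prop) (R : Word → ℝ → Prop) : Prop :=
  ∀ w v, R w v → 0 ≤ v ∧ (Q w = [] → a * pb c w.length + ind (p (Out w)) ≤ v) ∧
    (Q w ≠ [] → ∃ v₀ v₁, R (U (false :: w)) v₀ ∧ R (U (true :: w)) v₁ ∧
      a * pb c w.length + (v₀ + v₁) / 2 ≤ v)

/-- A machine which runs the rounds; the cost of a round depends only on the length of the current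
state, and its exponent does not depend on the initialisation. -/
theorem exists_machine_pot {Q U Out : Word → Word} (hQ : FP ∅ Q) (hU : FP ∅ U) (hO : FP ∅ Out) :
    ∃ c : ℕ, ∀ I : Word → Word, FP ∅ I → ∃ (M : Machine) (c' : ℕ), ∀ a : ℝ, 0 ≤ a →
      ∀ (p : Word → Prop) (R : Word → ℝ → Prop), Pot Q U Out c a p R → ∀ x r, R (I x) r → ∀ T,
        cost M a (fun d => d.l = none ∧ p (d.stk 0)) T (M.first x) ≤ a * pb c' x.length + r := by
  obtain ⟨p₂, c₂, n₂, r₂⟩ := exists_block hU hQ
  obtain ⟨p₃, c₃, n₃, r₃⟩ := exists_block hO (FP.nil (A := ∅))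
  obtain ⟨-, -, c₄, -, r₄, -⟩ := hQ.elim
  obtain ⟨c, hc⟩ := PB.exists_pb (T := fun n => 2 * (pb c₂ (n + 1) + pb c₃ n +
    2 * pb c₄ n) + 8) (((PB.const 2).mul ((((PB.pb c₂).comp
      (PB.id.add (PB.const 1))).add (PB.pb c₃)).add ((PB.const 2).mul (PB.pb c₄)))).add
        (PB.const 8))
  refine ⟨c, fun I hI => ?_⟩
  obtain ⟨p₁, c₁, n₁, r₁⟩ := exists_block hI hQ
  obtain ⟨N₀, hN⟩ := exists_bounded (.seq p₁ (.seq p₂ p₃))
  let N := N₀ + 2
  have b₁ : bounded (N + 1) p₁ := bounded_mono (by omega) hN.1
  have b₂ : bounded (N + 1) p₂ := bounded_mono (by omega) hN.2.1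
  have b₃ : bounded (N + 1) p₃ := bounded_mono (by omega) hN.2.2
  let bd : Prog := .seq (.query 0 0) p₂
  let L : List Prog := [.loop 2 bd, p₃]
  let S : Set (List Prog) := {[], L, bd :: L, .query 0 0 :: p₂ :: L} ∪
    (reach p₁ L ∪ (reach p₂ L ∪ reach p₃ []))
  have h0 : [] ∈ S := Or.inl (by simp)
  have hfin : S.Finite := (Set.toFinite _).union ((reach_finite _ _).union
    ((reach_finite _ _).union (reach_finite _ _)))
  have hL : L ∈ S := Or.inl (by simp)
  refine ⟨mach N S h0 hfin (p₁ :: L), c₁ + 1, fun a ha p R hR x r hx T => ?_⟩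
  set P : (mach N S h0 hfin (p₁ :: L)).Cfg → Prop := fun d => d.l = none ∧ p (d.stk 0) with hPd
  have hP : ∀ d, P d → d.l = none := fun d h => h.1
  have key : ∀ (T : ℕ) (w : Word) (r : ℝ), R w r → ∀ v,
      cost _ a P T (cfg N S h0 hfin (p₁ :: L) L v (mem w (Q w))) ≤ r := by
    intro T
    induction T with
    | zero =>
      intro w r hw v
      rw [cost, ind_neg fun h => Option.some_ne_none _ h.1]
      exact (hR w r hw).1
    | succ T ih =>
      intro w r hw v
      have hB : ((2 * (pb c₂ (w.length + 1) + pb c₃ w.length + 2 * pb c₄ w.length) + 8 : ℕ) : ℝ) ≤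
          pb c w.length := Nat.cast_le.2 (hc w.length)
      have hB' := mul_le_mul_of_nonneg_left hB ha
      have a2 := mul_nonneg ha (Nat.cast_nonneg (α := ℝ) (pb c₂ (w.length + 1)))
      have a3 := mul_nonneg ha (Nat.cast_nonneg (α := ℝ) (pb c₃ w.length))
      have a4 := mul_nonneg ha (Nat.cast_nonneg (α := ℝ) (pb c₄ w.length))
      push_cast at hB'
      by_cases h1 : Q w = []
      · have e1 : (mach N S h0 hfin (p₁ :: L)).Det 1
            (cfg N S h0 hfin (p₁ :: L) L v (mem w (Q w)))
            (cfg N S h0 hfin (p₁ :: L) [p₃] none (mem w (Q w))) := by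
          refine det_one hL (by simp [L]) ?_
          have h3 : restr N (mem w (Q w)) (stk N 2) = [] := by
            rw [restr_stk N (by omega)]
            exact h1
          simp only [L, stmt, TM2.stepAux, h3, List.head?_nil, cfg]
          rfl
        have e2 := cost_run (R := S) (T := T + 1) (r := a * (1 : ℕ) + ind (p (Out w)))
          (r₃ w (Q w)) n₃ b₃ (fun _ h => Or.inr (Or.inr (Or.inr h))) h0 ha hP (fun v => by
            have e3 : (mach N S h0 hfin (p₁ :: L)).Det 1
                (cfg N S h0 hfin (p₁ :: L) [] v (mem (Out w) []))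
                ⟨none, none, restr N (mem (Out w) [])⟩ := det_one h0 (by simp) rfl
            refine (cost_det ha hP e3 _).trans (le_of_eq ?_)
            rw [cost_halt rfl]
            exact congrArg (fun z => a * (1 : ℕ) + ind z) (propext (and_iff_right rfl))) none
        have e4 := cost_det ha hP e1 (T + 1)
        have e5 := (hR w r hw).2.1 h1
        rw [h1] at e2 e4 ⊢
        simp only [List.length_nil] at e2
        push_cast at e2 e4
        linarith
      · obtain ⟨v₀, v₁, w₀, w₁, hv⟩ := (hR w r hw).2.2 h1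
        obtain ⟨b, hb⟩ : ∃ b, (Q w).head? = some b := by
          cases hs : Q w with
          | nil => exact absurd hs h1
          | cons b w => exact ⟨b, by simp⟩
        have h3 : restr N (mem w (Q w)) (stk N 2) = Q w := restr_stk N (by omega) _
        have e1 : (mach N S h0 hfin (p₁ :: L)).Det 1
            (cfg N S h0 hfin (p₁ :: L) L v (mem w (Q w)))
            (cfg N S h0 hfin (p₁ :: L) (bd :: L) (some b) (mem w (Q w))) := by
          refine det_one hL (by simp [L]) ?_
          simp only [L, stmt, TM2.stepAux, h3, hb, cfg]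
          rfl
        have e5 : (mach N S h0 hfin (p₁ :: L)).Det 1
            (cfg N S h0 hfin (p₁ :: L) (bd :: L) (some b) (mem w (Q w)))
            (cfg N S h0 hfin (p₁ :: L) (.query 0 0 :: p₂ :: L) (some b) (mem w (Q w))) :=
          det_one (Or.inl (by simp)) (by simp [bd]) rfl
        have e6 : ∀ y, (mach N S h0 hfin (p₁ :: L)).step
            (cfg N S h0 hfin (p₁ :: L) (.query 0 0 :: p₂ :: L) (some b) (mem w (Q w))) y =
            cfg N S h0 hfin (p₁ :: L) (p₂ :: L) (some b) (mem (y :: w) (Q w)) := by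
          intro y
          rw [step_cfg (Or.inl (by simp))]
          simp only [dl, TM2.stepAux, cfg]
          rw [← mem_push w, restr_update N (by omega), restr_stk N (by omega)]
          rfl
        have e7 := fun y r (H : R (U (y :: w)) r) =>
          cost_run (R := S) (T := T) (r₂ (y :: w) (Q w)) n₂ b₂
            (fun _ h => Or.inr (Or.inr (Or.inl h))) hL ha hP (ih _ r H) (some b)
        have e8 := cost_step (P := P) ha T
          (cfg N S h0 hfin (p₁ :: L) (.query 0 0 :: p₂ :: L) (some b) (mem w (Q w)))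
        rw [e6, e6] at e8
        have e9 := e7 false v₀ w₀
        have e10 := e7 true v₁ w₁
        have e11 := cost_det ha hP (e1.trans e5) (T + 1)
        have h5 : ((Q w).length : ℝ) ≤ pb c₄ w.length := Nat.cast_le.2 (r₄ w)
        have h6 := mul_le_mul_of_nonneg_left h5 ha
        simp only [List.length_cons] at e9 e10
        push_cast at e9 e10 e11
        linarith
  have e1 : (mach N S h0 hfin (p₁ :: L)).first x =
      cfg N S h0 hfin (p₁ :: L) (p₁ :: L) none (mem x []) := by
    refine congrArg (fun s => (⟨some (lab S h0 (p₁ :: L)), none, s⟩ :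
      (mach N S h0 hfin (p₁ :: L)).Cfg)) (funext fun i => ?_)
    by_cases hi : i = 0
    · subst hi
      rfl
    · have h1 : (i : ℕ) ≠ 0 := fun e => hi (Fin.ext e)
      simp [restr, mem, hi, h1]
  rw [e1]
  refine (cost_run (r₁ x []) n₁ b₁ (fun _ h => Or.inr (Or.inl h)) hL ha hP (key T _ r hx)
    none).trans (add_le_add (mul_le_mul_of_nonneg_left (Nat.cast_le.2 ?_) ha) le_rfl)
  simp only [List.length_nil, pb, pow_succ]
  nlinarith [Nat.zero_le ((x.length + 2) ^ c₁ * x.length)]

end Vale.Agent.N328
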