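import Vale.Agent.N328.Impl
import Vale.Agent.P328C.All

/-!
The exactly uniform sampler in expected polynomial time, and the sampler with small relative error
at every table in worst case polynomial time.
-/

namespace Vale.Agent.N328

open Finset hiding val
open Filter Topology Vale.Agent.Lib.PTM Vale.Agent.Lib.PolyTime Vale.Agent.P328

/-- The number of doublings of the padding. -/
def nP (D : Dat) : ℕ := nE D.m D.n + gcoins D.m D.n + 1

/-- The number of coins of one trial. -/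
def nT (x : Dat × Un) : ℕ := nA x.1.m x.1.n x.2.v + x.1.m * (x.1.n * x.1.N.size)

theorem esize_le_cube {m n : ℕ} (r : Fin m → ℕ) (c : Fin n → ℕ) (hm : 1 ≤ m) (hn : 1 ≤ n) {L : ℝ}
    (hL : L = m + n + ∑ i, Real.logb 2 (r i + 2) + ∑ j, Real.logb 2 (c j + 2)) :
    ((esize ((List.ofFn r, List.ofFn c) : Dat) + 2 : ℕ) : ℝ) ≤ L ^ 3 := by
  have a6 : (m : ℝ) ≤ ∑ i, Real.logb 2 (r i + 2) := by
    simpa using Finset.sum_le_sum (s := (univ : Finset (Fin m))) fun i _ => one_le_logb (r i)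
  have a7 : (n : ℝ) ≤ ∑ j, Real.logb 2 (c j + 2) := by
    simpa using Finset.sum_le_sum (s := (univ : Finset (Fin n))) fun j _ => one_le_logb (c j)
  have a8 : ((∑ i, (r i).size : ℕ) : ℝ) ≤ 2 * ∑ i, Real.logb 2 (r i + 2) := by
    rw [Nat.cast_sum, Finset.mul_sum]
    exact Finset.sum_le_sum fun i _ => size_le_two _
  have a9 : ((∑ j, (c j).size : ℕ) : ℝ) ≤ 2 * ∑ j, Real.logb 2 (c j + 2) := by
    rw [Nat.cast_sum, Finset.mul_sum]
    exact Finset.sum_le_sum fun j _ => size_le_two _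
  have b1 : (1 : ℝ) ≤ m := by exact_mod_cast hm
  have b2 : (1 : ℝ) ≤ n := by exact_mod_cast hn
  rw [esize_pair, esize_ofFn, esize_ofFn]
  generalize ∑ i, (r i).size = R at *
  generalize ∑ j, (c j).size = C at *
  push_cast
  have d1 : 4 ≤ L := by linarith
  have d2 : 16 * L ≤ L ^ 3 := by nlinarith [mul_le_mul d1 d1 (by norm_num) (by linarith)]
  linarith

theorem tcost_le {α : Type} [Enc α] {t e : α → ℕ} {slow : α × List Bool → Bool} {c K : ℕ} {x : α}
    (h : ex (t x) (fun ρ => ind (slow (x, ρ) = true)) = 1 / 2 ^ K) (hK : c * e x ≤ K) :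
    tcost t e slow c x ≤ (((t x + 1) * (4 * esize x + 6 * t x + 3 + 2) ^ c +
      (e x + 1) * (4 * esize x + 6 * t x + 3 + 5) ^ c : ℕ) : ℝ) := by
  unfold tcost
  generalize 4 * esize x + 6 * t x + 3 = B
  have h1 : pb c (B + 3 * 2 ^ e x) ≤ (B + 5) ^ c * 2 ^ K := by
    have h2 : 1 ≤ 2 ^ e x := Nat.one_le_two_pow
    calc pb c (B + 3 * 2 ^ e x) ≤ ((B + 5) * 2 ^ e x) ^ c :=
          Nat.pow_le_pow_left (by nlinarith) c
      _ = (B + 5) ^ c * 2 ^ (c * e x) := by rw [mul_pow, ← pow_mul, mul_comm (e x)]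
      _ ≤ _ := Nat.mul_le_mul_left _ (Nat.pow_le_pow_right two_pos hK)
  have h3 : (pb c (B + 3 * 2 ^ e x) : ℝ) ≤ ((B + 5) ^ c : ℕ) * 2 ^ K := by exact_mod_cast h1
  rw [h, Nat.cast_add, Nat.cast_mul, Nat.cast_mul, Nat.cast_succ, Nat.cast_succ]
  refine add_le_add le_rfl ?_
  rw [div_mul_eq_mul_div, one_mul, div_le_iff₀ (by positivity), mul_assoc]
  exact mul_le_mul_of_nonneg_left h3 (by positivity)

/-- **The exact sampler.** -/
theorem exact_sampler : ∃ (M : Machine) (d : ℕ), ∀ (m n : ℕ) (r : Fin m → ℕ) (c : Fin n → ℕ),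
    1 ≤ m → 1 ≤ n → ∑ i, r i = ∑ j, c j → ∀ L : ℝ,
      L = m + n + ∑ i, Real.logb 2 (r i + 2) + ∑ j, Real.logb 2 (c j + 2) →
      ∀ prob : ℕ → (M.Cfg → Prop) → ℝ, (∀ T E, prob T E = (Nat.card {ρ : Fin T → Bool //
        E (M.run (pair (vec r) (vec c)) (List.ofFn ρ))} : ℝ) / 2 ^ T) →
      (∀ T, ∑ t ∈ range T, prob t (fun z => z.l ≠ none) ≤ L ^ d) ∧
      ∀ X ∈ tables r c, Tendsto (fun T => prob T fun z => z.l = none ∧ z.stk 0 = mat X) atTop
        (𝓝 (1 / (tables r c).card)) := by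
  have hP : PT ∅ nP := PT.add (PT.add (pt_nE PT.id) (Dat.pt_gcoins PT.id)) (PT.const 1)
  have hP' : PBd nP := ((pb_nE PT.id).add (pb_gcoins PT.id)).add (PBd.const 1)
  have hK : PT ∅ fun x : Dat × Un => x.2.v := PT.unVal PT.snd'
  have hK' : PBd fun x : Dat × Un => x.2.v := PBd.unVal (A := ∅) PT.snd'
  have hT : PT ∅ nT := PT.add (pt_nA PT.fst' hK) (PT.mul (Dat.pt_m PT.fst')
    (PT.mul (Dat.pt_n PT.fst') (Dat.pt_N PT.fst').natSize))
  have hT' : PBd nT := (pb_nA PT.fst' hK').add ((Dat.pb_m PT.fst').mul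
    ((Dat.pb_n PT.fst').mul (Dat.pt_N PT.fst').pbd)) |>.mono fun x => by
      rw [esize_nat]
      rfl
  have k : PT ∅ fun s : St (Dat × Un) => s.1.1 := PT.fst'.fst
  obtain ⟨e, H⟩ := exists_exact (t := nT) (e := fun x => nP x.1)
    (slow := fun p => decide (val (p.2.take p.1.2.v) = 0))
    (f := fun s => trialL s.1.1.1 s.1.1.2.v s.2.length s.1.2) [] hT (hP.comp PT.fst')
    (PT.eqNat (PT.valList (PT.take PT.snd' (hK.comp PT.fst'))) (PT.const 0))
    (pt_trialL k.fst (hK.comp k) (hK'.comp k) (PT.length PT.snd') (PBd.length (A := ∅) PT.snd')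
      PT.fst'.snd)
  have hι : PT ∅ fun D : Dat => ((D, Un.mk (e * nP D + 1)) : Dat × Un) :=
    PT.id.pair (PT.mkUn (PT.add (PT.mul (PT.const e) hP) (PT.const 1))
      (((PBd.const e).mul hP').add (PBd.const 1)))
  obtain ⟨M, e', HM⟩ := H Dat _ hι
  obtain ⟨d, hd⟩ : PBd fun D : Dat => pb e' (esize D) + 16 *
      ((nT (D, Un.mk (e * nP D + 1)) + 1) * (4 * esize ((D, Un.mk (e * nP D + 1)) : Dat × Un) +
        6 * nT (D, Un.mk (e * nP D + 1)) + 3 + 2) ^ e +
      (nP D + 1) * (4 * esize ((D, Un.mk (e * nP D + 1)) : Dat × Un) +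
        6 * nT (D, Un.mk (e * nP D + 1)) + 3 + 5) ^ e) := by
    have h1 := hT'.comp hι
    have h2 := hι.pbd
    have h3 : PBd fun D : Dat => pb e' (esize D) := PBd.of_PB (PB.pb e')
    fun_prop
  refine ⟨M, 3 * d, fun m n r c hm hn hrc L hL prob hprob => ?_⟩
  obtain ⟨i0, hi, hr⟩ := amax_spec hm r
  obtain ⟨j0, hj, hc⟩ := amax_spec hn c
  have hR : Dat.Rel (List.ofFn r, List.ofFn c) (⟨r, c, i0, j0, hr, hc, hrc⟩ : Par m n) :=
    ⟨List.length_ofFn, List.length_ofFn, List.sum_ofFn, getD_ofFn r, getD_ofFn c, hi, hj⟩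
  have hcode : pair (vec r) (vec c) = enc ((List.ofFn r, List.ofFn c) : Dat) := by
    rw [pair_eq, vec_eq, vec_eq]
    rfl
  have hb := esize_le_cube r c hm hn hL
  generalize ((List.ofFn r, List.ofFn c) : Dat) = D at hR hcode hb
  set P : Par m n := ⟨r, c, i0, j0, hr, hc, hrc⟩ with hPd
  have hF := P.facts
  have h1 : nT (D, Un.mk (e * nP D + 1)) = nA m n (e * nP D + 1) + m * (n * P.N.size) := by
    rw [nT, hR.m, hR.n, hR.N]
  obtain ⟨h2, h3⟩ := HM D _ (tables r c) mat (trial P (e * nP D + 1)) (kap P (e * nP D + 1))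
    (fun _ _ => mat_inj) (fun ρ => trialL_eq hR hF ρ fun h => by
      have h4 := length_pad (nP D)
      have h5 : 2 ^ (nE m n + 1) ≤ 2 ^ nP D :=
        Nat.pow_le_pow_right two_pos (by rw [nP, hR.m, hR.n]; omega)
      have h6 : 2 ^ (gcoins m n + 1) ≤ 2 ^ nP D :=
        Nat.pow_le_pow_right two_pos (by rw [nP, hR.m, hR.n]; omega)
      have h7 : 0 < 2 ^ nE m n := by positivity
      have h8 : 0 < 2 ^ gcoins m n := by positivity
      dsimp only
      rw [decide_eq_true h, cond_true]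
      omega) (fun _ _ h => trial_mem _ hF h) (fun X hX => h1 ▸ ex_trial _ hF hX)
    (kap_ge _ hF (by omega))
  have h4 : ∀ T E, prob T E = frq T fun ρ => E (M.run (enc D) ρ) := by
    intro T E
    rw [hprob, hcode, frq_eq T fun ρ => E (M.run (enc D) ρ), mul_div_cancel_right₀ _ (by positivity)]
  simp only [h4]
  refine ⟨fun T => (h2 T).trans ?_, h3⟩
  have h5 := tcost_le (t := nT) (e := fun x => nP x.1)
    (slow := fun p => decide (val (p.2.take p.1.2.v) = 0)) (c := e) (K := e * nP D + 1)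
    (x := (D, Un.mk (e * nP D + 1))) (by
      simp only [decide_eq_true_eq]
      rw [ex_val_take (by rw [h1, nA]; omega) fun v => ind (v = 0),
        sum_congr rfl fun v _ => congrArg ind (propext eq_comm),
        sum_ind (mem_range.2 (by positivity))]) (Nat.le_succ _)
  have h6 : ((pb d (esize D) : ℕ) : ℝ) ≤ L ^ (3 * d) := by
    rw [pow_mul, pb, Nat.cast_pow]
    exact pow_le_pow_left₀ (Nat.cast_nonneg _) hb d
  refine le_trans ?_ ((Nat.cast_le.2 (hd D)).trans h6)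
  rw [Nat.cast_add, Nat.cast_mul]
  exact add_le_add le_rfl (mul_le_mul_of_nonneg_left h5 (by norm_num))

/-- **Small relative error at every table.** -/
theorem pointwise_sampler : ∃ (M : Machine) (d : ℕ), ∀ (m n : ℕ) (r : Fin m → ℕ) (c : Fin n → ℕ),
    1 ≤ m → 1 ≤ n → ∑ i, r i = ∑ j, c j → ∀ ε : ℚ, 0 < ε → ε < 1 → ∀ (L : ℝ) (T : ℕ),
      L = m + n + ∑ i, Real.logb 2 (r i + 2) + ∑ j, Real.logb 2 (c j + 2) →
      (L + Real.logb 2 (1 / (ε : ℝ)) + Real.logb 2 ε.num) ^ d ≤ T →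
      ∀ out : (Fin T → Bool) → M.Cfg,
        (∀ ρ, out ρ = M.run (pair (vec r) (pair (vec c) (rat ε))) (List.ofFn ρ)) →
        (∀ ρ, (out ρ).l = none ∧ ∃ X ∈ tables r c, (out ρ).stk 0 = mat X) ∧
        (1 / 2 : ℝ) * ∑ X ∈ tables r c, |(Nat.card {ρ // (out ρ).stk 0 = mat X} : ℝ) / 2 ^ T -
          1 / (tables r c).card| ≤ ε ∧
        ∀ X ∈ tables r c, |(Nat.card {ρ // (out ρ).stk 0 = mat X} : ℝ) / 2 ^ T -
          1 / (tables r c).card| ≤ ε / (tables r c).card := by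
  have hD : PT ∅ fun x : Inp => ((x.1, x.2.1) : Dat) := PT.fst'.pair PT.snd'.fst
  have hs : PT ∅ fun x : Inp => esize x * esize x + esize x + 1 :=
    PT.add (PT.add (PT.mul PT.id.size PT.id.size) PT.id.size) (PT.const 1)
  have hs' : PBd fun x : Inp => esize x * esize x + esize x + 1 :=
    ((PBd.esize.mul PBd.esize).add PBd.esize).add (PBd.const 1)
  obtain ⟨M, e, HM⟩ := exists_machine (PT.mul (PT.mul (PT.const 16) (PT.add hs (PT.const 1)))
    (Dat.pt_tcoins hD (Dat.pt_gsteps hD hs))) (f := fun p : Inp × List Bool =>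
      Dat.output (p.1.1, p.1.2.1) (esize p.1 * esize p.1 + esize p.1 + 1) p.2)
    (Dat.pt_output (hD.comp PT.fst') (hs.comp PT.fst') (hs'.comp (PT.fst' (A := ∅))) PT.snd')
  obtain ⟨d, hd⟩ := (PBd.esize.add (((PBd.const 16).mul (hs'.add (PBd.const 1))).mul
    (Dat.pb_tcoins hD (Dat.pb_gsteps hD hs')))).add (PBd.const 2)
  refine ⟨M, 3 * (d * e), fun m n r c hm hn hrc ε h1 h2 L T hL hT out hout => ?_⟩
  have b1 := esize_le_mu r c hm hn h1 h2 (μ := L + Real.logb 2 (1 / (ε : ℝ)) + Real.logb 2 ε.num)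
    (by rw [hL])
  have b2 : (esize (inp r c ε) + 2) ^ (d * e) ≤ T := by
    rw [pow_mul] at hT
    exact_mod_cast (pow_le_pow_left₀ (Nat.cast_nonneg _) b1 _).trans hT
  obtain ⟨h5, h6⟩ := HM (inp r c ε) T (le_trans (by
    rw [pow_mul]
    exact Nat.pow_le_pow_left (hd _) e) b2)
  obtain ⟨i0, hi, hr⟩ := amax_spec hm r
  obtain ⟨j0, hj, hc⟩ := amax_spec hn c
  have hR : Dat.Rel (List.ofFn r, List.ofFn c) (⟨r, c, i0, j0, hr, hc, hrc⟩ : Par m n) :=
    ⟨List.length_ofFn, List.length_ofFn, List.sum_ofFn, getD_ofFn r, getD_ofFn c, hi, hj⟩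
  have hF := Par.facts (⟨r, c, i0, j0, hr, hc, hrc⟩ : Par m n)
  dsimp only at h6
  set s := esize (inp r c ε) * esize (inp r c ε) + esize (inp r c ε) + 1 with hsd
  have h7 : ∀ ρ, enc (Dat.output ((inp r c ε).1, (inp r c ε).2.1) s ρ) = _ :=
    fun ρ => hR.output hF (first_mem hrc) (fun _ _ => rfl) s ρ
  have h9 := Par.output_tv hF (first_mem hrc) s
  rw [← hR.N] at h9
  simp only [code_eq] at hout
  simp only [hout]
  simp only [h7] at h6
  have hc0 : (1 : ℝ) ≤ (tables r c).card := by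
    exact_mod_cast Finset.card_pos.2 ⟨_, first_mem hrc⟩
  have h8 : ∑ X ∈ tables r c, |(Nat.card {ρ : Fin T → Bool //
      (M.run (enc (inp r c ε)) (List.ofFn ρ)).stk 0 = mat X} : ℝ) / 2 ^ T -
        1 / (tables r c).card| ≤ ε / (tables r c).card := by
    have h10 := half_pow_le h1 (s := esize (inp r c ε)) (by rw [esize_inp]; omega)
    have h11 : ((tables r c).card : ℝ) ≤ 2 ^ (esize (inp r c ε) * esize (inp r c ε)) := by
      exact_mod_cast (card_tables r c).trans (Nat.pow_le_pow_right two_pos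
        (Nat.mul_le_mul (by rw [esize_inp]; omega) (by rw [esize_inp]; omega)))
    refine le_trans (le_of_eq (Finset.sum_congr rfl fun y _ => ?_)) (h9.trans ?_)
    · rw [frq_eq T fun ρ => (M.run (enc (inp r c ε)) ρ).stk 0 = mat y,
        mul_div_cancel_right₀ _ (by positivity), h6 fun w => w = mat y, frq_eq_ex]
      simp only [inp, hR.m, hR.n]
      congr 3
      funext ρ
      exact congrArg ind (propext ⟨mat_inj, fun h => by rw [h]⟩)
    · rw [le_div_iff₀ (by linarith)]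
      refine (mul_le_mul_of_nonneg_left h11 (by positivity)).trans (le_trans (le_of_eq ?_) h10)
      rw [hsd]
      simp only [one_div_pow, pow_add]
      field_simp
  have h12 : (0 : ℝ) < ε := by exact_mod_cast h1
  refine ⟨fun ρ => ⟨h5 ρ, ?_⟩, ?_, fun X hX => le_trans ?_ h8⟩
  · refine all_of_frq (P := fun ρ => ∃ X ∈ tables r c, (M.run (enc (inp r c ε)) ρ).stk 0 = mat X)
      ?_ ρ
    rw [h6 fun w => ∃ X ∈ tables r c, w = mat X, frq_congr (Q := fun _ => True)
      fun ρ _ => iff_true_intro ⟨_, Par.output_mem hF (first_mem hrc) s ρ, rfl⟩, frq_const, ind,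
      if_pos trivial]
  · have h13 := div_le_self h12.le hc0
    linarith
  · exact Finset.single_le_sum (f := fun X => |(Nat.card {ρ : Fin T → Bool //
      (M.run (enc (inp r c ε)) (List.ofFn ρ)).stk 0 = mat X} : ℝ) / 2 ^ T -
        1 / (tables r c).card|) (fun _ _ => abs_nonneg _) hX

end Vale.Agent.N328
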