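import Vale.Agent.N328.Main

/-!
Contingency tables with arbitrary margins: (1) an almost uniform sampler, with small relative error
at every table, and a fully polynomial randomised approximation scheme; (2) an exactly uniform
sampler with fair coins in expected polynomial time.
-/

namespace Vale.Agent.N328.OldExactSampler

open Filter Topology Vale.Agent.P328 Vale.Agent.Lib.PTM

theorem result :
    -- (1a) almost uniform sampler, and (2) its relative error at every single table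
    (∃ (M : Machine) (d : ℕ), ∀ (m n : ℕ) (r : Fin m → ℕ) (c : Fin n → ℕ),
      1 ≤ m → 1 ≤ n → ∑ i, r i = ∑ j, c j → ∀ ε : ℚ, 0 < ε → ε < 1 → ∀ (L : ℝ) (T : ℕ),
        L = m + n + ∑ i, Real.logb 2 (r i + 2) + ∑ j, Real.logb 2 (c j + 2) →
        (L + Real.logb 2 (1 / (ε : ℝ)) + Real.logb 2 ε.num) ^ d ≤ T →
        ∀ out : (Fin T → Bool) → M.Cfg,
          (∀ ρ, out ρ = M.run (pair (vec r) (pair (vec c) (rat ε))) (List.ofFn ρ)) →
          (∀ ρ, (out ρ).l = none ∧ ∃ X ∈ tables r c, (out ρ).stk 0 = mat X) ∧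
          (1 / 2 : ℝ) * ∑ X ∈ tables r c, |(Nat.card {ρ // (out ρ).stk 0 = mat X} : ℝ) / 2 ^ T -
            1 / (tables r c).card| ≤ ε ∧
          ∀ X ∈ tables r c, |(Nat.card {ρ // (out ρ).stk 0 = mat X} : ℝ) / 2 ^ T -
            1 / (tables r c).card| ≤ ε / (tables r c).card) ∧
    -- (1b) fully polynomial randomised approximation scheme
    (∃ (M : Machine) (d : ℕ), ∀ (m n : ℕ) (r : Fin m → ℕ) (c : Fin n → ℕ),
      1 ≤ m → 1 ≤ n → ∑ i, r i = ∑ j, c j → ∀ ε δ : ℚ, 0 < ε → ε < 1 → 0 < δ → δ < 1 →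
        ∀ (L : ℝ) (T : ℕ), L = m + n + ∑ i, Real.logb 2 (r i + 2) + ∑ j, Real.logb 2 (c j + 2) →
        (L + 1 / (ε : ℝ) + Real.logb 2 (1 / (δ : ℝ)) + Real.logb 2 (ε.num * δ.num)) ^ d ≤ T →
        ∀ out : (Fin T → Bool) → M.Cfg,
          (∀ ρ, out ρ = M.run (pair (vec r) (pair (vec c) (pair (rat ε) (rat δ)))) (List.ofFn ρ)) →
          (∀ ρ, (out ρ).l = none) ∧
          (1 - δ : ℝ) ≤ (Nat.card {ρ // ∃ a : ℕ, (out ρ).stk 0 = a.bits ∧
            (1 - ε : ℝ) * (tables r c).card ≤ a ∧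
              (a : ℝ) ≤ (1 + ε) * (tables r c).card} : ℝ) / 2 ^ T) ∧
    -- (3) exactly uniform sampler in expected polynomial time
    ∃ (M : Machine) (d : ℕ), ∀ (m n : ℕ) (r : Fin m → ℕ) (c : Fin n → ℕ),
      1 ≤ m → 1 ≤ n → ∑ i, r i = ∑ j, c j → ∀ L : ℝ,
        L = m + n + ∑ i, Real.logb 2 (r i + 2) + ∑ j, Real.logb 2 (c j + 2) →
        ∀ prob : ℕ → (M.Cfg → Prop) → ℝ, (∀ T E, prob T E = (Nat.card {ρ : Fin T → Bool //
          E (M.run (pair (vec r) (vec c)) (List.ofFn ρ))} : ℝ) / 2 ^ T) →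
        (∀ T, ∑ t ∈ Finset.range T, prob t (fun z => z.l ≠ none) ≤ L ^ d) ∧
        ∀ X ∈ tables r c, Tendsto (fun T => prob T fun z => z.l = none ∧ z.stk 0 = mat X) atTop
          (𝓝 (1 / (tables r c).card)) :=
  ⟨Vale.Agent.N328.pointwise_sampler, Vale.Agent.P328C.fpras, Vale.Agent.N328.exact_sampler⟩

end Vale.Agent.N328.OldExactSampler
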