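import Vale.Agent.N328.LV
import Vale.Agent.P328.GMix

/-!
Repeated trials until the first success, where each trial has a rare slow branch which may use
exponential time. If all outputs of one trial have the same probability, the machine produces an
exactly uniform output, in expected time bounded by the expected cost of one trial.
-/

namespace Vale.Agent.N328

open Filter Topology Vale.Agent.Lib.PTM Vale.Agent.Lib.PolyTime Vale.Agent.P328

theorem ex_nn {m : ℕ} {F : List Bool → ℝ} (h : ∀ ρ, 0 ≤ F ρ) : 0 ≤ ex m F :=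
  (ex_const m 0).ge.trans (ex_mono fun ρ _ => h ρ)

theorem ex_mul' (m : ℕ) (c : ℝ) (F : List Bool → ℝ) : ex m (fun ρ => F ρ * c) = ex m F * c := by
  simp only [mul_comm _ c, ex_mul]

theorem ex_sub (m : ℕ) (F G : List Bool → ℝ) : ex m (fun ρ => F ρ - G ρ) = ex m F - ex m G := by
  have h := ex_add m (fun ρ => F ρ - G ρ) G
  simp only [sub_add_cancel] at h
  linarith

/-- The padding of length `2 ^ j - 1`. -/
def pad (j : ℕ) : List Bool := List.replicate (2 ^ j - 1) true

theorem pad_zero : pad 0 = [] := rfl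

theorem length_pad (j : ℕ) : (pad j).length + 1 = 2 ^ j := by
  have : 0 < 2 ^ j := by positivity
  rw [pad, List.length_replicate]
  omega

theorem pad_succ (j : ℕ) : true :: (pad j ++ pad j) = pad (j + 1) := by
  have : 0 < 2 ^ j := by positivity
  rw [pad, pad, List.replicate_append_replicate, ← List.replicate_succ, pow_succ]
  congr 1
  omega

/-- States: the input, the coins of the current trial, the padding. -/
abbrev St (α : Type) : Type := (α × List Bool) × List Bool

/-- A state together with a coin. -/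
structure Cs (σ : Type) where
  b : Bool
  s : σ

instance {σ : Type} [Enc σ] : Enc (Cs σ) := ⟨fun i => i.b :: enc i.s⟩

section

variable {α β : Type} (t e : α → ℕ) (slow : α × List Bool → Bool) (f : St α → Option β)

/-- The result of a trial with the coins `ρ`. -/
def res (x : α) (ρ : List Bool) : Option β := f ((x, ρ), bif slow (x, ρ) then pad (e x) else [])

/-- More padding is needed. -/
def Need (s : St α) : Prop := slow s.1 = true ∧ (s.2.length + 1).size ≤ e s.1.1

instance (s : St α) : Decidable (Need e slow s) := inferInstanceAs (Decidable (_ ∧ _))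

/-- One round. -/
def upd (b : Bool) (s : St α) : St α :=
  if s.1.2.length < t s.1.1 then ((s.1.1, s.1.2 ++ [b]), s.2)
  else if Need e slow s then (s.1, true :: (s.2 ++ s.2)) else ((s.1.1, []), [])

/-- The test at the start of a round. -/
def cont (s : St α) : Raw :=
  if s.1.2.length < t s.1.1 ∨ Need e slow s ∨ (f s).isSome = false then ⟨[true]⟩ else ⟨[]⟩

/-- The value after a trial. -/
noncomputable def fin [Enc β] (p : Word → Prop) (V : ℝ) : Option β → ℝ
  | none => V
  | some b => ind (p (enc b))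

/-- The expected cost of one trial. -/
noncomputable def tcost [Enc α] (c : ℕ) (x : α) : ℝ :=
  (t x + 1) * pb c (4 * esize x + 6 * t x + 3) + ex (t x) (fun ρ => ind (slow (x, ρ) = true)) *
    ((e x + 1) * pb c (4 * esize x + 6 * t x + 3 + 3 * 2 ^ e x))

end

theorem esize_st {α : Type} [Enc α] (x : α) (ρ u : List Bool) :
    esize (((x, ρ), u) : St α) = 4 * esize x + 6 * ρ.length + 3 + 3 * u.length := by
  rw [esize_pair, esize_pair, esize_bools, esize_bools]
  ring

theorem exists_retry {α β : Type} [Enc α] [Enc β] {t e : α → ℕ} {slow : α × List Bool → Bool}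
    {f : St α → Option β} (d : β) (ht : PT ∅ t) (he : PT ∅ e) (hs : PT ∅ slow) (hf : PT ∅ f) :
    ∃ c : ℕ, ∀ (γ : Type) [Enc γ] (ι : γ → α), PT ∅ ι → ∃ (M : Machine) (c' : ℕ), ∀ (y : γ) (a : ℝ),
      0 ≤ a → ∀ (p : Word → Prop) (V : ℝ), 0 ≤ V → a * tcost t e slow c (ι y) +
        ex (t (ι y)) (fun ρ => fin p V (res e slow f (ι y) ρ)) ≤ V → ∀ T,
      cost M a (fun z => z.l = none ∧ p (z.stk 0)) T (M.first (enc y)) ≤
        a * pb c' (esize y) + V := by
  have hlt : PT ∅ fun s : St α => decide (s.1.2.length < t s.1.1) :=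
    PT.lt (PT.length PT.fst'.snd) (ht.comp PT.fst'.fst)
  have hN : PT ∅ fun s : St α => decide (Need e slow s) :=
    PT.decide_and ((hs.comp PT.fst').congr fun s => by simp)
      (PT.le (PT.add (PT.length PT.snd') (PT.const 1)).natSize (he.comp PT.fst'.fst))
  obtain ⟨Q, hQ, hQ'⟩ : PT ∅ (cont t e slow f) :=
    PT.ite (PT.decide_or hlt (PT.decide_or hN (hf.isSome.not.congr fun s => by
      cases (f s).isSome <;> rfl)))
      (PT.const _) (PT.const _)
  obtain ⟨U, hU, hU'⟩ : PT ∅ fun i : Cs (St α) => upd t e slow i.b i.s := by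
    have h1 : PT ∅ (Cs.s : Cs (St α) → St α) := ⟨_, FP.tail, fun _ => rfl⟩
    have h2 : PT ∅ (Cs.b : Cs (St α) → Bool) :=
      PT.rawHd (f := fun i : Cs (St α) => Raw.mk (enc i)) ⟨_, FP.id, fun _ => rfl⟩
    exact PT.ite (hlt.comp h1) ((h1.fst.fst.pair (PT.append h1.fst.snd (PT.cons h2 PT.nil))).pair
      h1.snd) (PT.ite (hN.comp h1) (h1.fst.pair (PT.cons (PT.const _) (PT.append h1.snd h1.snd)))
        ((h1.fst.fst.pair PT.nil).pair PT.nil))
  obtain ⟨O, hO, hO'⟩ : PT ∅ fun s : St α => (f s).getD d := PT.optGetD hf (PT.const d)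
  obtain ⟨c, H⟩ := exists_machine_pot hQ hU hO
  refine ⟨c, fun γ _ ι hι => ?_⟩
  obtain ⟨I, hI, hI'⟩ : PT ∅ fun y : γ => (((ι y, []), []) : St α) :=
    (hι.pair PT.nil).pair PT.nil
  obtain ⟨M, c', HM⟩ := H I hI
  refine ⟨M, c', fun y a ha p V hV hfix T => ?_⟩
  generalize hx : ι y = x at hfix
  set C₀ : ℝ := Nat.cast (pb c (4 * esize x + 6 * t x + 3)) with hC₀
  set C₁ : ℝ := Nat.cast (pb c (4 * esize x + 6 * t x + 3 + 3 * 2 ^ e x)) with hC₁
  have a₀ : 0 ≤ a * C₀ := mul_nonneg ha (Nat.cast_nonneg _)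
  have a₁ : 0 ≤ a * C₁ := mul_nonneg ha (Nat.cast_nonneg _)
  set W : List Bool → ℝ := fun ρ => fin p V (res e slow f x ρ) with hW
  have hW0 : ∀ ρ, 0 ≤ W ρ := fun ρ => by
    rw [hW]
    dsimp only
    cases res e slow f x ρ with
    | none => exact hV
    | some b => exact ind_nn _
  set G : List Bool → ℝ := fun ρ =>
    a * C₀ + ind (slow (x, ρ) = true) * ((e x + 1) * (a * C₁)) + W ρ with hG
  have hG0 : ∀ ρ, 0 ≤ G ρ := fun ρ =>
    add_nonneg (add_nonneg a₀ (mul_nonneg (ind_nn _) (by positivity))) (hW0 ρ)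
  let R : Word → ℝ → Prop := fun w v =>
    (∃ ρ j, ρ.length + j = t x ∧ w = enc (((x, ρ), []) : St α) ∧
      j * (a * C₀) + ex j (fun u => G (ρ ++ u)) ≤ v) ∨
    ∃ ρ j k, ρ.length = t x ∧ slow (x, ρ) = true ∧ j + k = e x ∧
      w = enc (((x, ρ), pad j) : St α) ∧ (k + 1) * (a * C₁) + W ρ ≤ v
  have hU'' : ∀ (b : Bool) (s : St α), U (b :: enc s) = enc (upd t e slow b s) :=
    fun b s => hU' ⟨b, s⟩
  have hR0 : R (enc (((x, []), []) : St α)) V := by
    refine Or.inl ⟨[], t x, zero_add _, rfl, le_trans (le_of_eq ?_) hfix⟩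
    simp only [List.nil_append, hG, ex_add, ex_const, ex_mul', tcost]
    ring
  have last : ∀ (ρ u : List Bool) (v : ℝ), ρ.length = t x → ¬ Need e slow ((x, ρ), u) →
      f ((x, ρ), u) = res e slow f x ρ → a * pb c (enc (((x, ρ), u) : St α)).length + W ρ ≤ v →
      0 ≤ v ∧ (Q (enc (((x, ρ), u) : St α)) = [] → a * pb c (enc (((x, ρ), u) : St α)).length +
        ind (p (O (enc (((x, ρ), u) : St α)))) ≤ v) ∧ (Q (enc (((x, ρ), u) : St α)) ≠ [] →
        ∃ v₀ v₁, R (U (false :: enc (((x, ρ), u) : St α))) v₀ ∧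
          R (U (true :: enc (((x, ρ), u) : St α))) v₁ ∧
          a * pb c (enc (((x, ρ), u) : St α)).length + (v₀ + v₁) / 2 ≤ v) := by
    intro ρ u v h1 h2 h3 h4
    refine ⟨le_trans (add_nonneg (mul_nonneg ha (Nat.cast_nonneg _)) (hW0 ρ)) h4, ?_⟩
    rw [hQ', hO', hU'', hU'']
    simp only [hW] at h4
    unfold cont upd
    dsimp only
    rw [h3, if_neg (show ¬ ρ.length < t x by omega), if_neg (show ¬ ρ.length < t x by omega),
      if_neg h2]
    cases h5 : res e slow f x ρ with
    | none =>
      rw [h5] at h4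
      rw [if_pos (Or.inr (Or.inr Option.isSome_none))]
      exact ⟨fun h => absurd h (List.cons_ne_nil _ _),
        fun _ => ⟨V, V, hR0, hR0, by rw [add_self_div_two]; exact h4⟩⟩
    | some b =>
      rw [h5] at h4
      rw [if_neg (by simp [h1, h2])]
      exact ⟨fun _ => h4, fun h => absurd rfl h⟩
  have slowc : ∀ (ρ : List Bool) (j k : ℕ) (v : ℝ), ρ.length = t x → slow (x, ρ) = true →
      j + k = e x → (k + 1) * (a * C₁) + W ρ ≤ v →
      0 ≤ v ∧ (Q (enc (((x, ρ), pad j) : St α)) = [] →
        a * pb c (enc (((x, ρ), pad j) : St α)).length +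
        ind (p (O (enc (((x, ρ), pad j) : St α)))) ≤ v) ∧ (Q (enc (((x, ρ), pad j) : St α)) ≠ [] →
        ∃ v₀ v₁, R (U (false :: enc (((x, ρ), pad j) : St α))) v₀ ∧
          R (U (true :: enc (((x, ρ), pad j) : St α))) v₁ ∧
          a * pb c (enc (((x, ρ), pad j) : St α)).length + (v₀ + v₁) / 2 ≤ v) := by
    intro ρ j k v h1 h2 h3 h4
    have h5 : a * pb c (enc (((x, ρ), pad j) : St α)).length ≤ a * C₁ := by
      refine mul_le_mul_of_nonneg_left (Nat.cast_le.2 (pb_mono c ?_)) ha
      have h6 := length_pad j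
      have h7 : 2 ^ j ≤ 2 ^ e x := Nat.pow_le_pow_right two_pos (by omega)
      change esize _ ≤ _
      rw [esize_st]
      omega
    have h8 : Need e slow ((x, ρ), pad j) ↔ j < e x := by
      unfold Need
      dsimp only
      rw [length_pad, Nat.size_pow, and_iff_right h2]
      rfl
    rcases k with _ | k
    · refine last ρ _ v h1 (by rw [h8]; omega) (by rw [res, h2, ← h3]; rfl) ?_
      push_cast at h4
      linarith
    · have h9 : ∀ b, R (U (b :: enc (((x, ρ), pad j) : St α))) ((k + 1) * (a * C₁) + W ρ) := by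
        intro b
        refine Or.inr ⟨ρ, j + 1, k, h1, h2, by omega, ?_, le_rfl⟩
        rw [hU'', upd, if_neg (show ¬ ρ.length < t x by omega), if_pos (h8.2 (by omega)), pad_succ]
      refine ⟨le_trans (add_nonneg (by positivity) (hW0 ρ)) h4, fun h => ?_,
        fun _ => ⟨_, _, h9 false, h9 true, ?_⟩⟩
      · rw [hQ', cont, if_pos (Or.inr (Or.inl (h8.2 (by omega))))] at h
        exact absurd h (List.cons_ne_nil _ _)
      · push_cast at h4
        linarith
  refine HM a ha p R ?_ (enc y) V (by rw [hI']; dsimp only; rw [hx]; exact hR0) T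
  rintro w v (⟨ρ, j, h1, rfl, h2⟩ | ⟨ρ, j, k, h1, h2, h3, rfl, h4⟩)
  · have h5 : a * pb c (enc (((x, ρ), []) : St α)).length ≤ a * C₀ := by
      refine mul_le_mul_of_nonneg_left (Nat.cast_le.2 (pb_mono c ?_)) ha
      change esize _ ≤ _
      rw [esize_st, List.length_nil]
      omega
    rcases j with _ | j
    · rw [ex_zero, List.append_nil] at h2
      simp only [hG] at h2
      cases h3 : slow (x, ρ) with
      | false =>
        rw [ind_neg (by simp [h3])] at h2
        refine last ρ [] v h1 (fun h => by simpa [h3] using h.1) (by rw [res, h3]; rfl) ?_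
        push_cast at h2
        linarith
      | true =>
        rw [ind_pos h3] at h2
        refine slowc ρ 0 (e x) v h1 h3 (zero_add _) ?_
        push_cast at h2
        linarith
    · have h9 : ∀ b, R (U (b :: enc (((x, ρ), []) : St α)))
          (j * (a * C₀) + ex j fun u => G (ρ ++ b :: u)) := by
        intro b
        refine Or.inl ⟨ρ ++ [b], j, by rw [List.length_append, List.length_singleton]; omega, ?_,
          by simp only [List.append_assoc, List.singleton_append, le_refl]⟩
        rw [hU'', upd, if_pos (show ρ.length < t x by omega)]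
      refine ⟨le_trans (add_nonneg (by positivity) (ex_nn fun _ => hG0 _)) h2, fun h => ?_,
        fun _ => ⟨_, _, h9 false, h9 true, ?_⟩⟩
      · rw [hQ', cont, if_pos (Or.inl (show ρ.length < t x by omega))] at h
        exact absurd h (List.cons_ne_nil _ _)
      · rw [ex_succ] at h2
        push_cast at h2
        linarith
  · exact slowc ρ j k v h1 h2 h3 h4

theorem frq_nn (m : ℕ) (P : List Bool → Prop) : 0 ≤ frq m P := by
  rw [frq_eq_ex]
  exact ex_nn fun _ => ind_nn _

/-- **Exact sampling.** If all elements of `S` have the same probability `κ` in one trial, and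
`κ |S| ≥ 1 / 16`, then the expected running time is at most `16` times the expected cost of a trial
(plus the initialisation), and the output is exactly uniform on `S`. -/
theorem exists_exact {α β : Type} [Enc α] [Enc β] {t e : α → ℕ} {slow : α × List Bool → Bool}
    {f : St α → Option β} (d : β) (ht : PT ∅ t) (he : PT ∅ e) (hs : PT ∅ slow) (hf : PT ∅ f) :
    ∃ c : ℕ, ∀ (γ : Type) [Enc γ] (ι : γ → α), PT ∅ ι → ∃ (M : Machine) (c' : ℕ), ∀ (y : γ)
      (δ : Type) (S : Finset δ) (code : δ → Word) (g : List Bool → Option δ) (κ : ℝ),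
      Function.Injective code → (∀ ρ, (res e slow f (ι y) ρ).map enc = (g ρ).map code) →
      (∀ ρ X, g ρ = some X → X ∈ S) →
      (∀ X ∈ S, ex (t (ι y)) (fun ρ => ind (g ρ = some X)) = κ) → 1 / 16 ≤ κ * S.card →
      (∀ T, ∑ i ∈ Finset.range T, frq i (fun ρ => (M.run (enc y) ρ).l ≠ none) ≤
        pb c' (esize y) + 16 * tcost t e slow c (ι y)) ∧
      ∀ X ∈ S, Tendsto (fun T => frq T fun ρ => (M.run (enc y) ρ).l = none ∧
        (M.run (enc y) ρ).stk 0 = code X) atTop (𝓝 (1 / S.card)) := by
  classical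
  obtain ⟨c, H⟩ := exists_retry d ht he hs hf
  refine ⟨c, fun γ _ ι hι => ?_⟩
  obtain ⟨M, c', HM⟩ := H γ ι hι
  refine ⟨M, c', fun y δ S code g κ hc hg hS hκ hκ' => ?_⟩
  have hS0 : (0 : ℝ) < S.card := by
    rcases Nat.eq_zero_or_pos S.card with h | h
    · rw [h] at hκ'
      norm_num at hκ'
    · exact_mod_cast h
  have hfin : ∀ (p : Word → Prop) (V : ℝ), ex (t (ι y)) (fun ρ => fin p V (res e slow f (ι y) ρ)) =
      V + κ * ∑ X ∈ S, (ind (p (code X)) - V) := by
    intro p V
    rw [Finset.mul_sum, Finset.sum_congr rfl fun X hX => by rw [← hκ X hX, ← ex_mul'], ← ex_sum,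
      ← ex_const (t (ι y)) V, ← ex_add]
    refine ex_congr fun ρ _ => ?_
    rw [ex_const]
    have h1 := hg ρ
    cases h2 : g ρ with
    | none =>
      rw [h2, Option.map_none, Option.map_eq_none_iff] at h1
      simp [h1, fin, ind]
    | some X =>
      rw [h2, Option.map_some, Option.map_eq_some_iff] at h1
      obtain ⟨b, h3, h4⟩ := h1
      rw [h3, fin, h4, Finset.sum_eq_single_of_mem X (hS ρ X h2) fun Y _ hY => by
        rw [ind_neg (fun h => hY (Option.some.inj h).symm), zero_mul], ind_pos rfl]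
      ring
  have h0 : 0 ≤ tcost t e slow c (ι y) :=
    add_nonneg (by positivity) (mul_nonneg (ex_nn fun _ => ind_nn _) (by positivity))
  have time : ∀ T, ∑ i ∈ Finset.range T, frq i (fun ρ => (M.run (enc y) ρ).l ≠ none) ≤
      pb c' (esize y) + 16 * tcost t e slow c (ι y) := by
    intro T
    have h1 := HM y 1 zero_le_one (fun _ => False) (16 * tcost t e slow c (ι y)) (by positivity)
      (by
        rw [hfin]
        simp only [ind_neg not_false, Finset.sum_const, nsmul_eq_mul]
        nlinarith [mul_le_mul_of_nonneg_right hκ' h0]) T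
    have h2 := frq_nn T fun ρ => (M.go (M.first (enc y)) ρ).l = none ∧ False
    rw [cost_eq, one_mul, one_mul] at h1
    exact le_trans (le_add_of_nonneg_right h2) h1
  refine ⟨time, fun X hX => ?_⟩
  have h1 : Tendsto (fun T => frq T fun ρ => (M.run (enc y) ρ).l ≠ none) atTop (𝓝 0) :=
    (summable_of_sum_range_le (fun _ => frq_nn _ _) time).tendsto_atTop_zero
  have h2 : ∑ Y ∈ S, ind (code X = code Y) = 1 := by
    simp only [hc.eq_iff]
    exact sum_ind hX
  have h3 : ∀ T, frq T (fun ρ => (M.run (enc y) ρ).l = none ∧ (M.run (enc y) ρ).stk 0 = code X) ≤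
      1 / S.card := by
    intro T
    have h4 := HM y 0 le_rfl (fun w => code X = w) (1 / S.card) (by positivity) (by
      rw [hfin, Finset.sum_sub_distrib, h2, Finset.sum_const, nsmul_eq_mul,
        mul_one_div_cancel hS0.ne']
      simp) T
    rw [cost_eq] at h4
    simpa only [zero_mul, zero_add, Machine.run_eq, eq_comm] using h4
  have h5 : ∀ T, frq T (fun ρ => (M.run (enc y) ρ).l = none ∧
      ¬ (M.run (enc y) ρ).stk 0 = code X) ≤ 1 - 1 / S.card := by
    intro T
    have h6 : (1 : ℝ) ≤ S.card := by exact_mod_cast Finset.card_pos.2 ⟨X, hX⟩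
    have h4 := HM y 0 le_rfl (fun w => ¬ code X = w) (1 - 1 / S.card)
      (sub_nonneg.2 ((div_le_one hS0).2 h6)) (by
      have h7 : ∀ Y ∈ S, ind (¬ code X = code Y) - (1 - 1 / S.card) =
          1 / S.card - ind (code X = code Y) := by
        intro Y _
        by_cases h : code X = code Y
        · rw [ind_pos h, ind_neg (not_not.2 h)]
          ring
        · rw [ind_pos h, ind_neg h]
          ring
      rw [hfin, Finset.sum_congr rfl h7, Finset.sum_sub_distrib, h2, Finset.sum_const, nsmul_eq_mul,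
        mul_one_div_cancel hS0.ne']
      simp) T
    rw [cost_eq] at h4
    simpa only [zero_mul, zero_add, Machine.run_eq, eq_comm] using h4
  have h6 : ∀ T, 1 / S.card - frq T (fun ρ => (M.run (enc y) ρ).l ≠ none) ≤
      frq T fun ρ => (M.run (enc y) ρ).l = none ∧ (M.run (enc y) ρ).stk 0 = code X := by
    intro T
    have h7 := h5 T
    have h8 : ex T (fun _ => 1) ≤ ex T fun ρ => ind ((M.run (enc y) ρ).l ≠ none) +
        (ind ((M.run (enc y) ρ).l = none ∧ (M.run (enc y) ρ).stk 0 = code X) +
          ind ((M.run (enc y) ρ).l = none ∧ ¬ (M.run (enc y) ρ).stk 0 = code X)) := by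
      refine ex_mono fun ρ _ => ?_
      by_cases h : (M.run (enc y) ρ).l = none <;>
        by_cases h' : (M.run (enc y) ρ).stk 0 = code X <;> simp [h, h', ind]
    rw [ex_const, ex_add, ex_add] at h8
    simp only [frq_eq_ex] at h7 ⊢
    linarith
  refine tendsto_of_tendsto_of_tendsto_of_le_of_le ?_ tendsto_const_nhds h6 h3
  simpa using h1.const_sub (1 / (S.card : ℝ))

end Vale.Agent.N328
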