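import Vale.Agent.N328.Dp

/-!
One trial of the exact sampler. With probability `1 - 2 ^ (-K)` the point of the coarse grid is the
state of the Metropolis chain; with probability `2 ^ (-K)` it is a uniform point of the grid, which
is accepted with the probability that makes the total probability of all points of height `0`
exactly equal.
-/

namespace Vale.Agent.N328

open Finset hiding val
open Vale.Agent.Lib.PTM Vale.Agent.Lib.PolyTime Vale.Agent.P328

/-- The number of steps of the chain. -/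
def nS (m n K : ℕ) : ℕ := gsteps m n (K + MM m n ^ 5 + MM m n ^ 20)

/-- The number of coins of the chain. -/
def nJ (m n K : ℕ) : ℕ := nS m n K * gcoins m n

/-- The number of coins for a uniform point of the grid. -/
def nE (m n : ℕ) : ℕ := m * (n * (13 * tau m n))

/-- The number of coins for the point of the grid. -/
def nA (m n K : ℕ) : ℕ := K + (nJ m n K + nE m n)

theorem le_nJ (m n K : ℕ) : K + MM m n ^ 5 + 1 ≤ nJ m n K := by
  have h1 : 1 ≤ MM m n ^ 62 := Nat.one_le_pow _ _ (MM_pos m n)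
  have h2 : 1 ≤ gcoins m n := by unfold gcoins; omega
  calc K + MM m n ^ 5 + 1 ≤ 2 * 1 * (MM m n ^ 20 + (K + MM m n ^ 5 + MM m n ^ 20 + 5)) * 1 := by
        omega
    _ ≤ _ := by unfold nJ nS gsteps; gcongr

theorem ex_lt {J c : ℕ} (h : c ≤ 2 ^ J) : ex J (fun w => ind (val w < c)) = c / 2 ^ J := by
  rw [ex_val J fun v => ind (v < c)]
  congr 1
  obtain ⟨d, hd⟩ := Nat.exists_eq_add_of_le h
  rw [hd, sum_range_add, sum_congr rfl fun z hz => ind_pos (mem_range.1 hz),
    sum_congr rfl fun z _ => ind_neg (show ¬ c + z < c by omega)]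
  simp

variable {m n : ℕ} (P : Par m n) (K : ℕ)

/-- The number of bits of a coordinate of the grid. -/
def kb (a : Fin m × Fin n) : ℕ := if a.1 ≠ P.i0 ∧ a.2 ≠ P.j0 then 13 * tau m n else 0

theorem Kc_eq (a : Fin m × Fin n) : P.Kc a = 2 ^ kb P a := by
  unfold Par.Kc kb MM
  split_ifs
  · rw [← pow_mul, mul_comm]
  · rfl

theorem kb_le (a : Fin m × Fin n) : kb P a ≤ 13 * tau m n := by
  unfold kb
  split_ifs <;> omega

/-- The point of the grid read from the coins. -/
def gdec (u : List Bool) : Pt m n := fun a =>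
  val ((blk (13 * tau m n) a.2 (blk (n * (13 * tau m n)) a.1 u)).take (kb P a))

theorem gdec_mem (u : List Bool) : gdec P u ∈ P.grid := by
  rw [Par.mem_grid_iff]
  intro a
  rw [Kc_eq]
  exact (val_lt _).trans_le (Nat.pow_le_pow_right two_pos (List.length_take_le _ _))

theorem ex_gdec (G : Pt m n → ℝ) :
    ex (nE m n) (fun u => G (gdec P u)) = (∑ k ∈ P.grid, G k) / P.grid.card := by
  have h1 := ex_blk (n * (13 * tau m n)) m
    (fun i u (j : Fin n) => val ((blk (13 * tau m n) j u).take (kb P (i, j))))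
    (fun i => Fintype.piFinset fun j => range (P.Kc (i, j))) (fun i => ∏ j, (P.Kc (i, j) : ℝ))
    (fun i F => ex_blk (13 * tau m n) n (fun j u => val (u.take (kb P (i, j))))
      (fun j => range (P.Kc (i, j))) (fun j => (P.Kc (i, j) : ℝ)) (fun j F => by
        rw [ex_val_take (kb_le P _), Kc_eq]
        push_cast
        rfl) F) fun Y => G fun a => Y a.1 a.2
  refine h1.trans ?_
  congr 1
  · refine Finset.sum_nbij' (fun Y a => Y a.1 a.2) (fun y i j => y (i, j)) (fun Y hY => ?_)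
      (fun y hy => ?_) (fun _ _ => rfl) (fun _ _ => rfl) fun _ _ => rfl
    · simp only [Par.grid, Fintype.mem_piFinset] at hY ⊢
      exact fun a => hY a.1 a.2
    · simp only [Par.grid, Fintype.mem_piFinset] at hy ⊢
      exact fun i j => hy (i, j)
  · rw [Par.grid, Fintype.card_piFinset, Fintype.prod_prod_type]
    simp only [Finset.card_range, Nat.cast_prod]

theorem card_grid : P.grid.card = 2 ^ ∑ a, kb P a := by
  rw [Par.grid, Fintype.card_piFinset, ← Finset.prod_pow_eq_pow_sum]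
  simp only [Finset.card_range, Kc_eq]

theorem gdec_surj {k : Pt m n} (hk : k ∈ P.grid) :
    ∃ a < 2 ^ nE m n, gdec P (wordOf (nE m n) a) = k := by
  by_contra h
  push Not at h
  have h1 := ex_gdec P fun z => ind (k = z)
  rw [sum_ind hk, ex_wordOf, Finset.sum_eq_zero fun a ha =>
    ind_neg fun e => h a (mem_range.1 ha) e.symm, zero_div] at h1
  have h2 : (0 : ℝ) < P.grid.card := by exact_mod_cast Finset.card_pos.2 ⟨k, hk⟩
  exact (one_div_pos.2 h2).ne h1

/-- The number of coin words which lead the chain from `0` to `k`. -/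
def cn (k : Pt m n) : ℕ := cnt P.gstep (gcoins m n) k (nS m n K) 0

/-- The common target value. -/
def top : ℕ := cn P K 0 * 2 ^ P.hgt 0 + 2 ^ (nJ m n K - (K + MM m n ^ 5 + 1))

/-- The threshold for the acceptance in the slow branch. -/
def thr (k : Pt m n) : ℕ := P.grid.card * ((2 ^ K - 1) * (top P K - cn P K k))

/-- The point of the grid of a trial. -/
def gk (ρ : List Bool) : Pt m n :=
  if val (ρ.take K) = 0 then gdec P ((ρ.drop K).drop (nJ m n K))
  else walk P.gstep (gcoins m n) (nS m n K) 0 ((ρ.drop K).take (nJ m n K))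

/-- The point of the grid is accepted. -/
def ok (ρ : List Bool) : Prop :=
  ¬ val (ρ.take K) = 0 ∨ val ((ρ.drop K).take (nJ m n K)) < thr P K (gk P K ρ)

instance (ρ : List Bool) : Decidable (ok P K ρ) := inferInstanceAs (Decidable (_ ∨ _))

/-- The point of the fine box of a trial. -/
def px (ρ : List Bool) : Pt m n :=
  P.pt (gk P K (ρ.take (nA m n K))) (P.fill (ρ.drop (nA m n K)))

/-- One trial. -/
def trial (ρ : List Bool) : Option (Fin m → Fin n → ℕ) :=
  if ok P K (ρ.take (nA m n K)) ∧ P.pen (px P K ρ) = 0 then some (P.tab (px P K ρ)) else none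

theorem walk_mem (t : ℕ) (u : List Bool) : walk P.gstep (gcoins m n) t 0 u ∈ P.grid :=
  walk_rel (f := P.gstep) (g := P.gstep) (fun k _ => k ∈ P.grid)
    (fun _ _ ρ h => P.gstep_mem h ρ) _ _ (y := 0) P.zero_mem_grid _

theorem gk_mem (ρ : List Bool) : gk P K ρ ∈ P.grid := by
  unfold gk
  split_ifs
  · exact gdec_mem P _
  · exact walk_mem P _ _

theorem px_mem (ρ : List Bool) : px P K ρ ∈ P.box := by
  have h1 := P.mem_grid_iff.1 (gk_mem P K (ρ.take (nA m n K)))
  have h2 := P.fill_mem (ρ.drop (nA m n K))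
  simp only [Par.cube, Par.box, Fintype.mem_piFinset, Finset.mem_range] at h2 ⊢
  intro a
  exact lt_of_lt_of_le (Nat.add_lt_add_left (h2 a) _) (Nat.mul_le_mul_left (P.del a) (h1 a))

variable {P}

theorem trial_mem (hF : P.Facts) {ρ : List Bool} {X : Fin m → Fin n → ℕ}
    (h : trial P K ρ = some X) : X ∈ tables P.r P.c := by
  unfold trial at h
  split_ifs at h with h1
  rw [← Option.some.inj h]
  exact hF.tab_mem (px_mem P K ρ) h1.2

theorem cn_close (hF : P.Facts) {k : Pt m n} (hk : k ∈ P.grid) :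
    |(cn P K k : ℝ) / 2 ^ nJ m n K - P.w k / ∑ z ∈ P.grid, P.w z| ≤
      (1 / 2) ^ (K + MM m n ^ 5 + MM m n ^ 20 + 5) := by
  have hM : (0 : ℝ) < MM m n := by exact_mod_cast MM_pos m n
  have h1 := (Par.wgood_gop hF).tv (l := K + MM m n ^ 5 + MM m n ^ 20 + 5) (t := nS m n K)
    P.zero_mem_grid (Par.Z_le_w0 hF) (le_of_eq (by unfold nS gsteps; push_cast; field_simp))
    ({k} : Finset (Pt m n)) (fun X z => ind (z = X)) (fun _ _ => ind_nn _)
    fun z => by rw [Finset.sum_singleton]; exact ind_le _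
  rw [Finset.sum_singleton, Finset.sum_eq_single_of_mem k hk fun z _ hz => by
    rw [ind_neg hz, mul_zero], ind_pos rfl, mul_one,
    ← ex_walk P.gstep _ P.gop (fun _ _ => rfl)] at h1
  rwa [cn, cnt_eq, nJ, mul_div_cancel_left₀ _ (by positivity)]

theorem top_facts (hF : P.Facts) : 1 / ∑ z ∈ P.grid, P.w z ≤ (top P K : ℝ) / 2 ^ nJ m n K ∧
    ∀ k ∈ P.grid, P.hgt k = 0 → cn P K k ≤ top P K ∧ thr P K k ≤ 2 ^ nJ m n K := by
  have hD : (0 : ℝ) < 2 ^ nJ m n K := by positivity
  set θ : ℝ := (1 / 2) ^ (K + MM m n ^ 5 + 5) with hθ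
  have hθ0 : 0 < θ := by positivity
  have h1 : ((1 : ℝ) / 2) ^ (K + MM m n ^ 5 + MM m n ^ 20 + 5) ≤ θ :=
    pow_le_pow_of_le_one (by norm_num) (by norm_num) (by omega)
  have h2 : |(cn P K 0 : ℝ) * 2 ^ P.hgt 0 / 2 ^ nJ m n K - 1 / ∑ z ∈ P.grid, P.w z| ≤ θ := by
    have h3 := mul_le_mul (cn_close K hF P.zero_mem_grid) (pow_le_pow_right₀ one_le_two
      (hF.hgt_le P.zero_mem_grid)) (by positivity) (by positivity)
    rw [← abs_of_pos (show (0 : ℝ) < 2 ^ P.hgt 0 by positivity), ← abs_mul] at h3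
    refine le_trans (le_of_eq (congrArg _ ?_)) (h3.trans (le_of_eq ?_))
    · rw [Par.w, one_div_pow]
      field_simp
    · rw [hθ, show K + MM m n ^ 5 + MM m n ^ 20 + 5 = K + MM m n ^ 5 + 5 + MM m n ^ 20 by ring,
        pow_add _ _ (MM m n ^ 20), mul_assoc, ← mul_pow]
      norm_num
  have h4 : (top P K : ℝ) / 2 ^ nJ m n K =
      (cn P K 0 : ℝ) * 2 ^ P.hgt 0 / 2 ^ nJ m n K + 16 * θ := by
    obtain ⟨d, hd⟩ := Nat.exists_eq_add_of_le (le_nJ m n K)
    rw [top, hd, Nat.add_sub_cancel_left, hθ]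
    simp only [one_div_pow, pow_add]
    push_cast
    field_simp
    ring
  obtain ⟨h5, h6⟩ := abs_le.1 h2
  refine ⟨by linarith, fun k hk h0 => ?_⟩
  have h7 := (cn_close K hF hk).trans h1
  rw [Par.w, h0, pow_zero] at h7
  obtain ⟨h8, h9⟩ := abs_le.1 h7
  have h10 : cn P K k ≤ top P K := by
    have h11 : (cn P K k : ℝ) / 2 ^ nJ m n K ≤ (top P K : ℝ) / 2 ^ nJ m n K := by linarith
    exact_mod_cast (div_le_div_iff_of_pos_right hD).1 h11
  refine ⟨h10, ?_⟩
  have h12 : ((top P K - cn P K k : ℕ) : ℝ) ≤ 32 * θ * 2 ^ nJ m n K := by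
    rw [Nat.cast_sub h10, ← div_le_iff₀ hD, sub_div]
    linarith
  have h13 : (P.grid.card : ℝ) ≤ 2 ^ MM m n ^ 5 := by exact_mod_cast hF.card_grid_le
  have h14 : ((2 ^ K - 1 : ℕ) : ℝ) ≤ 2 ^ K := by exact_mod_cast Nat.sub_le _ _
  have h15 : (thr P K k : ℝ) ≤ 2 ^ MM m n ^ 5 * (2 ^ K * (32 * θ * 2 ^ nJ m n K)) := by
    rw [thr, Nat.cast_mul, Nat.cast_mul]
    gcongr
  have h16 : (2 : ℝ) ^ MM m n ^ 5 * (2 ^ K * (32 * θ * 2 ^ nJ m n K)) = 2 ^ nJ m n K := by
    rw [hθ]
    simp only [one_div_pow, pow_add]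
    field_simp
    norm_num
  exact_mod_cast h15.trans h16.le

theorem ex_gk (hF : P.Facts) (F : Pt m n → ℝ) (h0 : ∀ k, P.hgt k ≠ 0 → F k = 0) :
    ex (nA m n K) (fun ρ => ind (ok P K ρ) * F (gk P K ρ)) =
      (1 - 1 / 2 ^ K) * ((top P K : ℝ) / 2 ^ nJ m n K) * ∑ k ∈ P.grid, F k := by
  have hG : (0 : ℝ) < P.grid.card := by exact_mod_cast Finset.card_pos.2 ⟨_, P.zero_mem_grid⟩
  have h1 : ex (nJ m n K + nE m n) (fun v => F (walk P.gstep (gcoins m n) (nS m n K) 0
      (v.take (nJ m n K)))) = ∑ k ∈ P.grid, (cn P K k : ℝ) / 2 ^ nJ m n K * F k := by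
    rw [ex_split _ _ fun w _ => F (walk P.gstep (gcoins m n) (nS m n K) 0 w)]
    simp only [ex_const, cn, cnt_eq, nJ]
    rw [Finset.sum_congr rfl fun k _ => by rw [mul_div_cancel_left₀ _ (by positivity), ← ex_mul'],
      ← ex_sum]
    refine ex_congr fun w _ => ?_
    rw [Finset.sum_eq_single_of_mem _ (walk_mem P _ w) fun z _ hz => by
      rw [ind_neg hz.symm, zero_mul], ind_pos rfl, one_mul]
  have h2 : ex (nJ m n K + nE m n) (fun v => ind (val (v.take (nJ m n K)) <
      thr P K (gdec P (v.drop (nJ m n K)))) * F (gdec P (v.drop (nJ m n K)))) =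
      ∑ k ∈ P.grid, (2 ^ K - 1) * (((top P K : ℝ) - cn P K k) / 2 ^ nJ m n K * F k) := by
    rw [ex_split _ _ fun w u => ind (val w < thr P K (gdec P u)) * F (gdec P u)]
    simp only [fun w : List Bool => ex_gdec P fun k => ind (val w < thr P K k) * F k,
      Finset.sum_div]
    rw [ex_sum]
    refine Finset.sum_congr rfl fun k hk => ?_
    simp only [mul_div_assoc]
    rw [ex_mul']
    by_cases h : P.hgt k = 0
    · obtain ⟨h3, h4⟩ := (top_facts K hF).2 k hk h
      rw [ex_lt h4, thr, Nat.cast_mul, Nat.cast_mul, Nat.cast_sub h3, Nat.cast_sub Nat.one_le_two_pow]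
      push_cast
      field_simp
    · simp [h0 k h]
  have h3 : ∀ ρ, ind (ok P K ρ) * F (gk P K ρ) = if val (ρ.take K) = 0 then
      ind (val ((ρ.drop K).take (nJ m n K)) < thr P K (gdec P ((ρ.drop K).drop (nJ m n K)))) *
        F (gdec P ((ρ.drop K).drop (nJ m n K))) else F (walk P.gstep (gcoins m n) (nS m n K) 0
          ((ρ.drop K).take (nJ m n K))) := by
    intro ρ
    unfold ok gk
    split_ifs with h
    · simp only [h, not_true, false_or]
    · rw [ind_pos (Or.inl h), one_mul]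
  simp only [h3]
  rw [nA, ex_split K _ fun u v => if val u = 0 then ind (val (v.take (nJ m n K)) <
      thr P K (gdec P (v.drop (nJ m n K)))) * F (gdec P (v.drop (nJ m n K))) else
      F (walk P.gstep (gcoins m n) (nS m n K) 0 (v.take (nJ m n K))),
    ex_val K fun a => ex (nJ m n K + nE m n) fun v => if a = 0 then ind (val (v.take (nJ m n K)) <
      thr P K (gdec P (v.drop (nJ m n K)))) * F (gdec P (v.drop (nJ m n K))) else
      F (walk P.gstep (gcoins m n) (nS m n K) 0 (v.take (nJ m n K)))]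
  obtain ⟨s, hs⟩ : ∃ s, 2 ^ K = s + 1 := ⟨_, (Nat.succ_pred_eq_of_pos (by positivity)).symm⟩
  have hs' : (2 : ℝ) ^ K = s + 1 := by exact_mod_cast hs
  rw [hs, Finset.sum_range_succ']
  simp only [Nat.succ_ne_zero, if_false, if_true, h1, h2, Finset.sum_const, Finset.card_range,
    nsmul_eq_mul, hs', Finset.mul_sum, ← Finset.sum_add_distrib, Finset.sum_div]
  refine Finset.sum_congr rfl fun k _ => ?_
  field_simp
  ring

/-- The probability of each table in one trial. -/
noncomputable def kap (P : Par m n) (K : ℕ) : ℝ :=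
  (1 - 1 / 2 ^ K) * ((top P K : ℝ) / 2 ^ nJ m n K) * (1 / P.cube.card)

theorem ex_trial (hF : P.Facts) {X : Fin m → Fin n → ℕ} (hX : X ∈ tables P.r P.c) :
    ex (nA m n K + m * (n * P.N.size)) (fun ρ => ind (trial P K ρ = some X)) = kap P K := by
  have h1 : ∀ ρ, ind (trial P K ρ = some X) = ind (ok P K (ρ.take (nA m n K))) *
      ind (P.pen (px P K ρ) = 0 ∧ P.tab (px P K ρ) = X) := by
    intro ρ
    unfold trial
    by_cases h : ok P K (ρ.take (nA m n K))
    · by_cases h' : P.pen (px P K ρ) = 0 <;> simp [h, h', ind]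
    · simp [h, ind]
  simp only [h1, px]
  rw [ex_split _ _ fun u v => ind (ok P K u) * ind (P.pen (P.pt (gk P K u) (P.fill v)) = 0 ∧
    P.tab (P.pt (gk P K u) (P.fill v)) = X)]
  simp only [ex_mul, fun k => P.ex_fill fun y => ind (P.pen (P.pt k y) = 0 ∧ P.tab (P.pt k y) = X)]
  rw [ex_gk K hF (fun k => (∑ y ∈ P.cube, ind (P.pen (P.pt k y) = 0 ∧ P.tab (P.pt k y) = X)) /
    P.cube.card) fun k hk => by
      rw [Finset.sum_eq_zero fun y hy => ind_neg fun h => hk (hF.hgt_eq_zero k hy h.1), zero_div],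
    kap, ← Finset.sum_div, ← hF.sum_box fun x => ind (P.pen x = 0 ∧ P.tab x = X),
    ← sum_ind hX, ← hF.sum_tab fun Y => ind (X = Y), Finset.sum_filter]
  congr 2
  refine Finset.sum_congr rfl fun x _ => ?_
  by_cases h : P.pen x = 0 <;> simp [h, ind, eq_comm]

theorem kap_ge (hF : P.Facts) (hK : 1 ≤ K) : 1 / 16 ≤ kap P K * (tables P.r P.c).card := by
  have hc : (0 : ℝ) < P.cube.card := by exact_mod_cast Finset.card_pos.2 ⟨_, P.fill_mem []⟩
  have hZ : 0 < ∑ k ∈ P.grid, P.w k := Finset.sum_pos (fun k _ => P.w_pos k) ⟨_, P.zero_mem_grid⟩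
  have h1 : (1 : ℝ) / 2 ≤ 1 - 1 / 2 ^ K := by
    have h2 : (1 : ℝ) / 2 ^ K ≤ 1 / 2 ^ 1 :=
      one_div_le_one_div_of_le (by norm_num) (pow_le_pow_right₀ one_le_two hK)
    linarith
  have h3 : 1 / 2 * (1 / ∑ z ∈ P.grid, P.w z) * (1 / P.cube.card) ≤ kap P K :=
    mul_le_mul_of_nonneg_right (mul_le_mul h1 (top_facts K hF).1 (by positivity) (by linarith))
      (by positivity)
  refine le_trans ?_ (mul_le_mul_of_nonneg_right h3 (Nat.cast_nonneg _))
  have h4 := hF.Z_le
  rw [div_mul_div_comm, div_mul_div_comm, div_mul_eq_mul_div,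
    div_le_div_iff₀ (by norm_num) (by positivity)]
  linarith

end Vale.Agent.N328
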